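import Vale.Agent.P092.H464.KakChart

/-!
P092, TEAM N, block [N-K] (helper99), part 1: the discrete Kakeya estimate `kak_chart` of helper464
relative to a projection `E` which commutes with everything: the incidence of the four projection
valued measures is only assumed on the range of `E`.
-/

set_option linter.all false

namespace Vale.Agent.P092.H99

open MeasureTheory Finset Vale.Agent.P092.H361 Vale.Agent.P092.H175.Kb Vale.Agent.P092.H464

variable {K : Type*} [NormedAddCommGroup K] [InnerProductSpace ℂ K] [CompleteSpace K]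

/-- `P` (on `X`) and `L` (on `Y`) commute and are carried by the relation `I` on the range of
`E`. -/
structure CIR {X Y : Type*} [MeasurableSpace X] [MeasurableSpace Y] (E : K →L[ℂ] K)
    (I : X → Y → Prop) (P : Set X → (K →L[ℂ] K)) (L : Set Y → (K →L[ℂ] K)) : Prop where
  comm : ∀ A N, MeasurableSet A → MeasurableSet N → P A * L N = L N * P A
  inc : ∀ A N, MeasurableSet A → MeasurableSet N → (∀ x ∈ A, ∀ ν ∈ N, ¬ I x ν) →
    P A * L N * E = 0

/-- an orthogonal projection commuting with the measure `P` -/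
structure CE {X : Type*} [MeasurableSpace X] (E : K →L[ℂ] K) (P : Set X → (K →L[ℂ] K)) :
    Prop where
  comm : ∀ A, MeasurableSet A → P A * E = E * P A

section Mod

variable {X Y : Type*} [MeasurableSpace X] [MeasurableSpace Y] {E : K →L[ℂ] K}

open Classical in
/-- the measure `P` on the range of `E`, the point mass at `x₀` on its complement -/
noncomputable def md (E : K →L[ℂ] K) (x₀ : X) (P : Set X → (K →L[ℂ] K)) (A : Set X) :
    K →L[ℂ] K := P A * E + (if x₀ ∈ A then (1 - E) else 0)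

theorem E_one_sub (hE : E * E = E) : E * (1 - E) = 0 := by rw [mul_sub, mul_one, hE, sub_self]

theorem one_sub_E (hE : E * E = E) : (1 - E) * E = 0 := by rw [sub_mul, one_mul, hE, sub_self]

theorem one_sub_sq (hE : E * E = E) : (1 - E) * (1 - E) = 1 - E := by
  rw [mul_sub, mul_one, one_sub_E hE, sub_zero]

theorem md_mul {P : Set X → (K →L[ℂ] K)} {L : Set Y → (K →L[ℂ] K)} (hE : E * E = E)
    (hL : CE E L) (x₀ : X) (y₀ : Y) {A : Set X} {N : Set Y} (hN : MeasurableSet N) :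
    md E x₀ P A * md E y₀ L N = P A * L N * E +
      (haveI := Classical.propDecidable (x₀ ∈ A ∧ y₀ ∈ N)
       if x₀ ∈ A ∧ y₀ ∈ N then (1 - E) else 0) := by
  classical
  have h1 : P A * E * (L N * E) = P A * L N * E := by
    rw [mul_assoc, ← mul_assoc E, ← hL.comm N hN, mul_assoc (L N), hE, mul_assoc]
  have h2 : (1 - E) * (L N * E) = 0 := by
    rw [hL.comm N hN, ← mul_assoc, one_sub_E hE, zero_mul]
  have h3 : P A * E * (1 - E) = 0 := by rw [mul_assoc, E_one_sub hE, mul_zero]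
  unfold md
  by_cases hx : x₀ ∈ A <;> by_cases hy : y₀ ∈ N <;>
    simp [hx, hy, add_mul, mul_add, h1, h2, h3, one_sub_sq hE]

theorem md_pv {P : Set X → (K →L[ℂ] K)} (hP : Pv P) (hE : E * E = E) (hEs : star E = E)
    (hPE : CE E P) (x₀ : X) : Pv (md E x₀ P) where
  sa := by
    classical
    intro A hA
    unfold md
    rw [star_add, star_mul, hEs, hP.sa A hA, hPE.comm A hA]
    by_cases hx : x₀ ∈ A <;> simp [hx, hEs]
  inter := by
    classical
    intro A B hA hB
    rw [md_mul hE hPE x₀ x₀ hB, ← hP.inter A B hA hB]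
    unfold md
    by_cases hx : x₀ ∈ A <;> by_cases hy : x₀ ∈ B <;> simp [hx, hy]
  compl := by
    classical
    intro A hA
    unfold md
    rw [hP.compl A hA]
    by_cases hx : x₀ ∈ A
    · simp only [Set.mem_compl_iff, hx, not_true_eq_false, if_false, if_true, sub_mul, one_mul]
      abel
    · simp only [Set.mem_compl_iff, hx, not_false_eq_true, if_false, if_true, sub_mul, one_mul]
      abel

theorem md_ci {P : Set X → (K →L[ℂ] K)} {L : Set Y → (K →L[ℂ] K)} {I : X → Y → Prop}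
    (h : CIR E I P L) (hE : E * E = E) (hP : CE E P) (hL : CE E L) {x₀ : X} {y₀ : Y}
    (h0 : I x₀ y₀) : CI I (md E x₀ P) (md E y₀ L) where
  comm := by
    classical
    intro A N hA hN
    rw [md_mul hE hL x₀ y₀ hN, md_mul hE hP y₀ x₀ hA, h.comm A N hA hN]
    by_cases hx : x₀ ∈ A <;> by_cases hy : y₀ ∈ N <;> simp [hx, hy]
  inc := by
    classical
    intro A N hA hN hne
    rw [md_mul hE hL x₀ y₀ hN, h.inc A N hA hN hne, zero_add]
    rw [if_neg]
    rintro ⟨hx, hy⟩
    exact hne x₀ hx y₀ hy h0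

theorem md_E {P : Set X → (K →L[ℂ] K)} (hE : E * E = E) (x₀ : X) (A : Set X) :
    md E x₀ P A * E = P A * E := by
  classical
  unfold md
  rw [add_mul, mul_assoc, hE]
  by_cases hx : x₀ ∈ A <;> simp [hx, one_sub_E hE]

/-- the norm of `T E + μ (1 - E)` -/
theorem norm_md_le (hE : E * E = E) (hEs : star E = E) {T : K →L[ℂ] K} (hT : T * E = E * T)
    {μ : ℂ} {ε : ℝ} (hε : 0 ≤ ε) (h1 : ‖T * E‖ ≤ ε) (h2 : ‖μ‖ ≤ ε) :
    ‖T * E + μ • (1 - E)‖ ≤ ε := by
  refine ContinuousLinearMap.opNorm_le_bound _ hε fun ξ => ?_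
  have hEE : ∀ v, E (E v) = E v := fun v => by
    rw [← ContinuousLinearMap.mul_apply, hE]
  have horth : ∀ v w : K, inner ℂ (E v) (w - E w) = 0 := by
    intro v w
    have e1 : inner ℂ (E v) (E w) = inner ℂ (E v) w := by
      have e2 : ContinuousLinearMap.adjoint E = E := by
        rw [← ContinuousLinearMap.star_eq_adjoint, hEs]
      have := ContinuousLinearMap.adjoint_inner_left E w (E v)
      rw [e2, hEE] at this
      exact this.symm
    rw [inner_sub_right, e1, sub_self]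
  have e0 : (T * E + μ • (1 - E)) ξ = E (T ξ) + μ • (ξ - E ξ) := by
    rw [hT]; rfl
  have hort : inner ℂ (E (T ξ)) (μ • (ξ - E ξ)) = 0 := by
    rw [inner_smul_right, horth, mul_zero]
  have p1 : ‖E (T ξ) + μ • (ξ - E ξ)‖ ^ 2 = ‖E (T ξ)‖ ^ 2 + ‖μ • (ξ - E ξ)‖ ^ 2 := by
    have := norm_add_sq_eq_norm_sq_add_norm_sq_of_inner_eq_zero (𝕜 := ℂ) _ _ hort
    simpa [sq] using this
  have p2 : ‖ξ‖ ^ 2 = ‖E ξ‖ ^ 2 + ‖ξ - E ξ‖ ^ 2 := by
    have := norm_add_sq_eq_norm_sq_add_norm_sq_of_inner_eq_zero (𝕜 := ℂ) (E ξ) (ξ - E ξ)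
      (horth ξ ξ)
    rw [add_sub_cancel] at this
    simpa [sq] using this
  have p3 : ‖E (T ξ)‖ ≤ ε * ‖E ξ‖ := by
    have e3 : E (T ξ) = (T * E) (E ξ) := by
      rw [ContinuousLinearMap.mul_apply, hEE]
      have : (E * T) ξ = (T * E) ξ := by rw [hT]
      exact this
    rw [e3]
    exact ((T * E).le_opNorm _).trans (mul_le_mul_of_nonneg_right h1 (norm_nonneg _))
  have p4 : ‖μ • (ξ - E ξ)‖ ≤ ε * ‖ξ - E ξ‖ := by
    rw [norm_smul]; exact mul_le_mul_of_nonneg_right h2 (norm_nonneg _)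
  rw [e0]
  refine abs_le_of_sq_le_sq' ?_ (by positivity) |>.2
  rw [p1, mul_pow, p2, mul_add, ← mul_pow, ← mul_pow]
  gcongr

end Mod

variable {X Y : Type*} [MeasurableSpace X] [MeasurableSpace Y]
variable {s : X → Fin 3 → ℝ} {t : Y → Fin 3 → ℝ} {Pb Pc : Set X → (K →L[ℂ] K)}
variable {Ll Lm : Set Y → (K →L[ℂ] K)}

theorem md_fun {E : K →L[ℂ] K} {F : X → ℂ} {W : K →L[ℂ] K} (hE : E * E = E) (hEs : star E = E)
    (hPE : CE E Pb) (hWE : W * E = E * W) (hs : Measurable s) (hW : Fun s Pb F W) (x₀ : X) :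
    Fun s (md E x₀ Pb) F (W * E +
      (haveI := Classical.propDecidable (x₀ ∈ Ch s)
       if x₀ ∈ Ch s then F x₀ else 0) • (1 - E)) := by
  classical
  set μ : ℂ := if x₀ ∈ Ch s then F x₀ else 0 with hμ
  have k1 : ∀ A, MeasurableSet A → W * E * (Pb A * E) = W * Pb A * E := by
    intro A hA
    rw [mul_assoc, ← mul_assoc E, ← hPE.comm A hA, mul_assoc (Pb A), hE, mul_assoc]
  have k2 : ∀ A, MeasurableSet A → (1 - E) * (Pb A * E) = 0 := by
    intro A hA
    rw [hPE.comm A hA, ← mul_assoc, one_sub_E hE, zero_mul]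
  have k3 : W * E * (1 - E) = 0 := by rw [mul_assoc, E_one_sub hE, mul_zero]
  have key : ∀ (c : ℂ) A, MeasurableSet A → (W * E + μ • (1 - E) - c • 1) * md E x₀ Pb A =
      (W - c • 1) * Pb A * E + (if x₀ ∈ A then μ - c else 0) • (1 - E) := by
    intro c A hA
    unfold md
    by_cases hx : x₀ ∈ A
    · simp only [hx, if_true]
      have k5 : (μ • (1 - E)) * (1 - E) = μ • (1 - E) := by
        rw [smul_mul_assoc, one_sub_sq hE]
      have k6 : (μ • (1 - E)) * (Pb A * E) = 0 := by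
        rw [smul_mul_assoc, k2 A hA, smul_zero]
      have k7 : (c • (1 : K →L[ℂ] K)) * (1 - E) = c • (1 - E) := by
        rw [smul_mul_assoc, one_mul]
      have k8 : (c • (1 : K →L[ℂ] K)) * (Pb A * E) = c • (1 : K →L[ℂ] K) * Pb A * E := by
        rw [mul_assoc]
      rw [mul_add, sub_mul, sub_mul, add_mul, add_mul, k1 A hA, k6, k3, k5, k7, k8, sub_smul,
        sub_mul, sub_mul]
      abel
    · simp only [hx, if_false]
      rw [add_zero, sub_mul, add_mul, k1 A hA, smul_mul_assoc, k2 A hA, smul_mul_assoc, one_mul,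
        sub_mul, sub_mul, smul_mul_assoc, one_mul, smul_mul_assoc]
      simp only [smul_zero, add_zero, zero_smul]
  have k4 : E * (Pb Set.univ) = Pb Set.univ * E := (hPE.comm _ MeasurableSet.univ).symm
  refine ⟨?_, ?_, ?_⟩
  · intro A hA
    have e1 : (W * E + μ • (1 - E)) * md E x₀ Pb A = W * Pb A * E +
        (if x₀ ∈ A then μ else 0) • (1 - E) := by
      have := key 0 A hA
      simpa using this
    have e2 : md E x₀ Pb A * (W * E + μ • (1 - E)) = W * Pb A * E +
        (if x₀ ∈ A then μ else 0) • (1 - E) := by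
      unfold md
      have q1 : Pb A * E * (W * E) = W * Pb A * E := by
        rw [mul_assoc, ← mul_assoc E, ← hWE, mul_assoc W, hE, ← mul_assoc, ← hW.comm A hA]
      have q2 : (1 - E) * (W * E) = 0 := by rw [hWE, ← mul_assoc, one_sub_E hE, zero_mul]
      have q3 : Pb A * E * (1 - E) = 0 := by rw [mul_assoc, E_one_sub hE, mul_zero]
      by_cases hx : x₀ ∈ A
      · simp only [hx, if_true]
        rw [add_mul, mul_add, q1, mul_smul_comm, q3, mul_add, q2, mul_smul_comm, one_sub_sq hE]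
        simp
      · simp only [hx, if_false]
        rw [add_zero, mul_add, q1, mul_smul_comm, q3]
        simp
    rw [e1, e2]
  · have hmc : MeasurableSet (Ch s)ᶜ := (meas_Ch hs).compl
    have := key 0 (Ch s)ᶜ hmc
    rw [zero_smul, sub_zero, sub_zero] at this
    rw [this, hW.off, zero_mul, zero_add]
    by_cases hx : x₀ ∈ Ch s
    · simp [hx]
    · simp [hμ, hx]
  · intro A hA hAm c ε hε hF
    rw [key c A hAm]
    have h1 : ‖(W - c • 1) * Pb A‖ ≤ ε := hW.approx A hA hAm c ε hε hF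
    have hTE : (W - c • 1) * Pb A * E = E * ((W - c • 1) * Pb A) := by
      rw [mul_assoc, hPE.comm A hAm, ← mul_assoc, ← mul_assoc, sub_mul, hWE, mul_sub,
        smul_mul_assoc, one_mul, mul_smul_comm, mul_one]
    have hEn : ‖E‖ ≤ 1 := by
      have h3 := norm_md_le (T := 1) (μ := 0) (ε := ‖E‖) hE hEs (by rw [one_mul, mul_one])
        (norm_nonneg _) (by rw [one_mul]) (by simp)
      -- `‖E‖ ^ 2 = ‖E⋆ E‖`
      have h4 : ‖E‖ * ‖E‖ = ‖E‖ := by
        have := CStarRing.norm_star_mul_self (x := E)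
        rw [hEs, hE] at this
        exact this.symm
      by_contra h5
      rw [not_le] at h5
      nlinarith
    refine norm_md_le hE hEs hTE hε ?_ ?_
    · calc ‖(W - c • 1) * Pb A * E‖ ≤ ‖(W - c • 1) * Pb A‖ * ‖E‖ := norm_mul_le _ _
        _ ≤ ε * 1 := mul_le_mul h1 hEn (norm_nonneg _) hε
        _ = ε := mul_one _
    · by_cases hx : x₀ ∈ A
      · simp only [hx, if_true]
        have hc : x₀ ∈ Ch s := hA hx
        rw [hμ, if_pos hc]
        exact hF x₀ hx
      · simp only [hx, if_false, norm_zero]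
        exact hε

/-- **the discrete Kakeya estimate, relative to a projection** -/
theorem kak_rel (hs : Measurable s) (ht : Measurable t) (hs0 : ∀ x, s x ≠ 0)
    (ht0 : ∀ ν, t ν ≠ 0) (hb : Pv Pb) (hc : Pv Pc) (hl : Pv Ll) (hm : Pv Lm)
    {E : K →L[ℂ] K} (hE : E * E = E) (hEs : star E = E) (hbE : CE E Pb) (hcE : CE E Pc)
    (hlE : CE E Ll) (hmE : CE E Lm)
    (hbl : CIR E (Inc s t) Pb Ll) (hcl : CIR E (Inc s t) Pc Ll) (hcm : CIR E (Inc s t) Pc Lm)
    {κ : Type*} (S : Finset κ) (y : κ → ℝ × ℝ) (F : κ → X → ℂ) (W : κ → (K →L[ℂ] K))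
    (hWE : ∀ k ∈ S, W k * E = E * W k)
    {r C : ℝ} (hC : 0 ≤ C) (hr : 0 < r) (hr1 : r ≤ 1) {N : ℕ}
    (hy : ∀ k ∈ S, |(y k).1| ≤ 1 ∧ |(y k).2| ≤ 1)
    (hcnt : ∀ n : ℝ × ℝ, #{k ∈ S | |(y k).1 - n.1| ≤ r ∧ |(y k).2 - n.2| ≤ r} ≤ N)
    (hF : ∀ k ∈ S, Adm s r C (y k) (F k)) (hW : ∀ k ∈ S, Fun s Pb (F k) (W k)) (ξ : K) :
    ∑ k ∈ S, ‖Lm (disc t (y k) (C * r)) (W k (E ξ))‖ ^ 2 ≤
      kakC C * N * (1 + Real.log (1 / r)) ^ 4 * ‖E ξ‖ ^ 2 := by
  classical
  have hEE : ∀ v, E (E v) = E v := fun v => by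
    rw [← ContinuousLinearMap.mul_apply, hE]
  by_cases h0 : ∃ x₀ : X, ∃ y₀ : Y, Inc s t x₀ y₀
  · obtain ⟨x₀, y₀, h0⟩ := h0
    have key := kak_chart hs ht hs0 ht0 (md_pv hb hE hEs hbE x₀) (md_pv hc hE hEs hcE x₀)
      (md_pv hl hE hEs hlE y₀) (md_pv hm hE hEs hmE y₀) (md_ci hbl hE hbE hlE h0)
      (md_ci hcl hE hcE hlE h0) (md_ci hcm hE hcE hmE h0) S y F _ hC hr hr1 hy hcnt hF
      (fun k hk => md_fun hE hEs hbE (hWE k hk) hs (hW k hk) x₀) (E ξ)
    refine le_trans (le_of_eq ?_) key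
    refine Finset.sum_congr rfl fun k hk => ?_
    have e1 : ∀ μ : ℂ, (W k * E + μ • (1 - E)) (E ξ) = E (W k (E ξ)) := by
      intro μ
      have a1 : (W k * E) (E ξ) = W k (E ξ) := by
        rw [ContinuousLinearMap.mul_apply, hEE]
      have a2 : E (W k (E ξ)) = W k (E ξ) := by
        have : (E * W k) (E ξ) = (W k * E) (E ξ) := by rw [hWE k hk]
        rw [a1] at this
        exact this
      have a3 : ((1 : K →L[ℂ] K) - E) (E ξ) = 0 := by
        rw [ContinuousLinearMap.sub_apply, hEE]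
        simp
      rw [ContinuousLinearMap.add_apply, ContinuousLinearMap.smul_apply, a1, a2, a3]
      simp
    rw [e1]
    have e2 : md E y₀ Lm (disc t (y k) (C * r)) (E (W k (E ξ))) =
        Lm (disc t (y k) (C * r)) (E (W k (E ξ))) := by
      have := congrArg (fun T : K →L[ℂ] K => T (W k (E ξ)))
        (md_E (P := Lm) hE y₀ (disc t (y k) (C * r)))
      exact this
    rw [e2]
    have a2 : E (W k (E ξ)) = W k (E ξ) := by
      have a1 : (W k * E) (E ξ) = W k (E ξ) := by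
        rw [ContinuousLinearMap.mul_apply, hEE]
      have : (E * W k) (E ξ) = (W k * E) (E ξ) := by rw [hWE k hk]
      rw [a1] at this
      exact this
    rw [a2]
  · have hE0 : E = 0 := by
      have h1 := hbl.inc Set.univ Set.univ MeasurableSet.univ MeasurableSet.univ
        (fun x _ ν _ hI => h0 ⟨x, ν, hI⟩)
      rw [hb.univ, hl.univ, one_mul, one_mul] at h1
      exact h1
    rw [hE0]
    simp

end Vale.Agent.P092.H99
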