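import Vale.Agent.P092.H99.Rel

/-!
P092, TEAM N, block [N-K] (helper99), part 2: slicing along a third projection valued measure `Q`
which commutes with everything.

* `Pv.ce` : a projection of a commuting measure is a `CE`;
* `rel_ci` : relative incidence in a cell of `Q`;
* `slice_sum` : an estimate for every cell of a finite partition gives the estimate;
* `slice_approx` : the same when the operators are only close to the model operators in every cell.
-/

set_option linter.all false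

namespace Vale.Agent.P092.H99

open MeasureTheory Finset Vale.Agent.P092.H361 Vale.Agent.P092.H175.Kb Vale.Agent.P092.H464

variable {K : Type*} [NormedAddCommGroup K] [InnerProductSpace ℂ K] [CompleteSpace K]
variable {X Y Z : Type*} [MeasurableSpace X] [MeasurableSpace Y] [MeasurableSpace Z]
variable {P : Set X → (K →L[ℂ] K)} {L : Set Y → (K →L[ℂ] K)} {Q : Set Z → (K →L[ℂ] K)}

/-- commutation of `P` with a projection of `Q` -/
theorem ce_of {J : X → Z → Prop} (h : CI J P Q) {C : Set Z} (hC : MeasurableSet C) :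
    CE (Q C) P := ⟨fun A hA => h.comm A C hA hC⟩

/-- **relative incidence in a cell, restriction on the first variable** -/
theorem rel_ci {I I' : X → Y → Prop} {J : X → Z → Prop} (hP : Pv P) (hPL : CI I P L)
    (hPQ : CI J P Q) {C : Set Z} (hC : MeasurableSet C) {N : Set X} (hN : MeasurableSet N)
    (hNC : ∀ x, x ∉ N → ∀ z ∈ C, ¬ J x z) (hI : ∀ x ∈ N, ∀ y, I x y → I' x y) :
    CIR (Q C) I' P L where
  comm := hPL.comm
  inc := by
    intro A B hA hB hAB
    have h0 : P Nᶜ * Q C = 0 := hPQ.inc _ _ hN.compl hC fun x hx z hz => hNC x hx z hz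
    have h1 : Q C = P N * Q C := by
      have := hP.compl N hN
      rw [this, sub_mul, one_mul, sub_eq_zero] at h0
      exact h0
    have h2 : P A * L B * Q C = P (A ∩ N) * L B * Q C := by
      conv_lhs => rw [h1]
      rw [← mul_assoc, hPL.comm A B hA hB, mul_assoc (L B), ← hP.inter A N hA hN,
        ← hPL.comm _ B (hA.inter hN) hB]
    rw [h2, hPL.inc _ _ (hA.inter hN) hB fun x hx y hy hxy => hAB x hx.1 y hy (hI x hx.2 y hxy),
      zero_mul]

/-- **relative incidence in a cell, restriction on both variables** -/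
theorem rel_ci₂ {I I' : X → Y → Prop} {J : X → Z → Prop} {J' : Y → Z → Prop} (hP : Pv P)
    (hL : Pv L) (hPL : CI I P L) (hPQ : CI J P Q) (hLQ : CI J' L Q) {C : Set Z}
    (hC : MeasurableSet C) {N : Set X} (hN : MeasurableSet N) {M : Set Y} (hM : MeasurableSet M)
    (hNC : ∀ x, x ∉ N → ∀ z ∈ C, ¬ J x z) (hMC : ∀ y, y ∉ M → ∀ z ∈ C, ¬ J' y z)
    (hI : ∀ x ∈ N, ∀ y ∈ M, I x y → I' x y) : CIR (Q C) I' P L where
  comm := hPL.comm
  inc := by
    intro A B hA hB hAB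
    have g0 : L Mᶜ * Q C = 0 := hLQ.inc _ _ hM.compl hC fun y hy z hz => hMC y hy z hz
    have g1 : Q C = L M * Q C := by
      have := hL.compl M hM
      rw [this, sub_mul, one_mul, sub_eq_zero] at g0
      exact g0
    have g2 : P A * L B * Q C = P A * L (B ∩ M) * Q C := by
      conv_lhs => rw [g1]
      rw [← mul_assoc, mul_assoc (P A), ← hL.inter B M hB hM]
    have h := (rel_ci (I' := fun x y => x ∈ N ∧ I x y) hP hPL hPQ hC hN hNC
      (fun x hx y hxy => ⟨hx, hxy⟩)).inc A (B ∩ M) hA (hB.inter hM)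
      (fun x hx y hy hxy => hAB x hx y hy.1 (hI x hxy.1 y hy.2 hxy.2))
    rw [g2, h]

section sum

/-- a finite orthogonal decomposition of the identity -/
structure Dec {T : Type*} (I : Finset T) (E : T → (K →L[ℂ] K)) : Prop where
  sa : ∀ i ∈ I, star (E i) = E i
  sq : ∀ i ∈ I, E i * E i = E i
  orth : ∀ i ∈ I, ∀ j ∈ I, i ≠ j → E i * E j = 0
  one : ∑ i ∈ I, E i = 1

variable {T : Type*} {I : Finset T} {E : T → (K →L[ℂ] K)}

theorem Dec.norm_sq (h : Dec I E) (ξ : K) : ∑ i ∈ I, ‖E i ξ‖ ^ 2 = ‖ξ‖ ^ 2 := by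
  have h1 : ∀ i ∈ I, ((‖E i ξ‖ ^ 2 : ℝ) : ℂ) = inner ℂ ξ (E i ξ) := by
    intro i hi
    have e2 : ContinuousLinearMap.adjoint (E i) = E i := by
      rw [← ContinuousLinearMap.star_eq_adjoint, h.sa i hi]
    have e3 : E i (E i ξ) = E i ξ := by
      have := congrArg (fun A : K →L[ℂ] K => A ξ) (h.sq i hi)
      exact this
    have e4 := ContinuousLinearMap.adjoint_inner_left (E i) (E i ξ) ξ
    rw [e2, e3] at e4
    have e5 : inner ℂ (E i ξ) (E i ξ) = inner ℂ ξ (E i ξ) := by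
      have e6 := ContinuousLinearMap.adjoint_inner_right (E i) ξ (E i ξ)
      rw [e2, e3] at e6
      exact e6.symm
    rw [← e5, inner_self_eq_norm_sq_to_K]
    push_cast
    rfl
  have h2 : ((∑ i ∈ I, ‖E i ξ‖ ^ 2 : ℝ) : ℂ) = ((‖ξ‖ ^ 2 : ℝ) : ℂ) := by
    rw [Complex.ofReal_sum, Finset.sum_congr rfl h1, ← inner_sum]
    have e1 : ∑ i ∈ I, E i ξ = ξ := by
      have := congrArg (fun A : K →L[ℂ] K => A ξ) h.one
      simpa [ContinuousLinearMap.sum_apply] using this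
    rw [e1, inner_self_eq_norm_sq_to_K]
    push_cast
    rfl
  exact_mod_cast h2

/-- **slicing** -/
theorem slice_sum (h : Dec I E) {κ : Type*} (S : Finset κ) (R : κ → (K →L[ℂ] K))
    (hR : ∀ k ∈ S, ∀ i ∈ I, E i * R k = R k * E i) {M : ℝ}
    (hM : ∀ i ∈ I, ∀ ξ, ∑ k ∈ S, ‖R k (E i ξ)‖ ^ 2 ≤ M * ‖E i ξ‖ ^ 2) (ξ : K) :
    ∑ k ∈ S, ‖R k ξ‖ ^ 2 ≤ M * ‖ξ‖ ^ 2 := by
  have e1 : ∑ k ∈ S, ‖R k ξ‖ ^ 2 = ∑ k ∈ S, ∑ i ∈ I, ‖R k (E i ξ)‖ ^ 2 := by
    refine Finset.sum_congr rfl fun k hk => ?_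
    rw [← h.norm_sq (R k ξ)]
    refine Finset.sum_congr rfl fun i hi => ?_
    have : E i (R k ξ) = R k (E i ξ) := by
      have := congrArg (fun A : K →L[ℂ] K => A ξ) (hR k hk i hi)
      exact this
    rw [this]
  rw [e1, Finset.sum_comm, ← h.norm_sq ξ, Finset.mul_sum]
  exact Finset.sum_le_sum fun i hi => hM i hi ξ

/-- **slicing with approximate model operators**: in the cell `i` the operator `R k` is within
`ε` of the model operator `V i k`, and the model operators satisfy the estimate. -/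
theorem slice_approx (h : Dec I E) {κ : Type*} (S : Finset κ) (R : κ → (K →L[ℂ] K))
    (hR : ∀ k ∈ S, ∀ i ∈ I, E i * R k = R k * E i) {M ε : ℝ} (V : T → κ → K → ℝ)
    (hV : ∀ i ∈ I, ∀ ξ, ∑ k ∈ S, (V i k (E i ξ)) ^ 2 ≤ M * ‖E i ξ‖ ^ 2)
    (hRV : ∀ i ∈ I, ∀ k ∈ S, ∀ ξ, ‖R k (E i ξ)‖ ≤ V i k (E i ξ) + ε * ‖E i ξ‖) (ξ : K) :
    ∑ k ∈ S, ‖R k ξ‖ ^ 2 ≤ (2 * M + 2 * (#S : ℝ) * ε ^ 2) * ‖ξ‖ ^ 2 := by
  refine slice_sum h S R hR (fun i hi ξ => ?_) ξ
  have h1 : ∀ k ∈ S, ‖R k (E i ξ)‖ ^ 2 ≤ 2 * (V i k (E i ξ)) ^ 2 + 2 * (ε ^ 2 * ‖E i ξ‖ ^ 2) := by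
    intro k hk
    have h2 := hRV i hi k hk ξ
    have h3 : ‖R k (E i ξ)‖ ^ 2 ≤ (V i k (E i ξ) + ε * ‖E i ξ‖) ^ 2 :=
      pow_le_pow_left₀ (norm_nonneg _) h2 2
    nlinarith [sq_nonneg (V i k (E i ξ) - ε * ‖E i ξ‖)]
  refine (Finset.sum_le_sum h1).trans ?_
  rw [Finset.sum_add_distrib, Finset.sum_const, ← Finset.mul_sum, nsmul_eq_mul]
  have := hV i hi ξ
  nlinarith [this]

end sum

/-- a finite measurable partition gives a decomposition of the identity -/
theorem dec_of (hQ : Pv Q) {T : Type*} (I : Finset T) (C : T → Set Z)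
    (hC : ∀ i ∈ I, MeasurableSet (C i)) (hd : ∀ i ∈ I, ∀ j ∈ I, i ≠ j → Disjoint (C i) (C j))
    (hu : ∀ z, ∃ i ∈ I, z ∈ C i) : Dec I fun i => Q (C i) where
  sa := fun i hi => hQ.sa _ (hC i hi)
  sq := fun i hi => hQ.idem (hC i hi)
  orth := by
    intro i hi j hj hij
    rw [← hQ.inter _ _ (hC i hi) (hC j hj), Set.disjoint_iff_inter_eq_empty.1 (hd i hi j hj hij),
      hQ.empty]
  one := by
    have key := hQ.sum I C hC hd
    have hu' : (⋃ i ∈ I, C i) = Set.univ := by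
      refine Set.eq_univ_of_forall fun z => ?_
      obtain ⟨i, hi, hz⟩ := hu z
      exact Set.mem_biUnion hi hz
    rw [← key, hu', hQ.univ]

end Vale.Agent.P092.H99
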