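import Vale.Agent.P092.H99.Sec

/-!
P092, TEAM N, block [N-K] (helper99), part 4: small cells of the Grassmannian.

`prj I v₀ w = Σ_a w (I a) • v₀ a` is the projection to the span of the normalised frame `v₀`;
`GC j I v₀ ε` = the `j`-dimensional subspaces all of whose vectors `w` satisfy
`‖w - prj w‖ ≤ ε ‖w‖`.
-/

set_option linter.all false

open TopologicalSpace Topology Module Set MeasureTheory

namespace Vale.Agent.P092.H99.Sec

open Vale.Agent.P092.H100.Gr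

/-- a finite open cover refines to a finite measurable partition -/
theorem exists_partition {Z : Type*} [TopologicalSpace Z] [MeasurableSpace Z] [BorelSpace Z]
    {m : ℕ} (O : Fin m → Set Z) (hO : ∀ i, IsOpen (O i)) (hu : ∀ z, ∃ i, z ∈ O i) :
    ∃ C : Fin m → Set Z, (∀ i, MeasurableSet (C i)) ∧ (∀ i j, i ≠ j → Disjoint (C i) (C j)) ∧
      (∀ z, ∃ i, z ∈ C i) ∧ ∀ i, C i ⊆ O i := by
  classical
  refine ⟨fun i => O i \ ⋃ j : {j : Fin m // j < i}, O (j : Fin m), fun i => ?_, fun i j hij => ?_,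
    fun z => ?_, fun i => Set.sdiff_subset⟩
  · exact (hO i).measurableSet.diff
      (isOpen_iUnion fun j : {j : Fin m // j < i} => hO (j : Fin m)).measurableSet
  · rw [Set.disjoint_left]
    rintro z ⟨h1, h2⟩ ⟨h3, h4⟩
    rcases lt_or_gt_of_ne hij with h | h
    · exact h4 (mem_iUnion.2 ⟨⟨i, h⟩, h1⟩)
    · exact h2 (mem_iUnion.2 ⟨⟨j, h⟩, h3⟩)
  · have hne : (Finset.univ.filter fun i => z ∈ O i).Nonempty := by
      obtain ⟨i, hi⟩ := hu z
      exact ⟨i, by simp [hi]⟩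
    refine ⟨(Finset.univ.filter fun i => z ∈ O i).min' hne, ?_, ?_⟩
    · exact (Finset.mem_filter.1 (Finset.min'_mem _ hne)).2
    · intro h
      obtain ⟨⟨j, hj⟩, hz⟩ := mem_iUnion.1 h
      have := Finset.min'_le (Finset.univ.filter fun i => z ∈ O i) j (by simp [hz])
      exact absurd hj (not_lt.2 this)

variable {k : Type*} [NontriviallyNormedField k] {ι : Type*} [Fintype ι] {j : ℕ}

/-- the projection to the three space spanned by `v₀` -/
def prj (I : Fin 3 → ι) (v₀ : Fin 3 → ι → k) (w : ι → k) : ι → k := ∑ a, w (I a) • v₀ a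

theorem prj_add (I : Fin 3 → ι) (v₀ : Fin 3 → ι → k) (w w' : ι → k) :
    prj I v₀ (w + w') = prj I v₀ w + prj I v₀ w' := by
  simp only [prj, Pi.add_apply, add_smul, Finset.sum_add_distrib]

theorem prj_smul (I : Fin 3 → ι) (v₀ : Fin 3 → ι → k) (c : k) (w : ι → k) :
    prj I v₀ (c • w) = c • prj I v₀ w := by
  simp only [prj, Pi.smul_apply, smul_eq_mul, mul_smul, Finset.smul_sum]

theorem prj_cont (I : Fin 3 → ι) (v₀ : Fin 3 → ι → k) : Continuous (prj I v₀) := by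
  unfold prj
  fun_prop

/-- the cell -/
def GC (j : ℕ) (I : Fin 3 → ι) (v₀ : Fin 3 → ι → k) (ε : ℝ) : Set (Gr k ι j) :=
  {L | ∀ w ∈ L.1, ‖w - prj I v₀ w‖ ≤ ε * ‖w‖}

theorem GC_closed (j : ℕ) (I : Fin 3 → ι) (v₀ : Fin 3 → ι → k) (ε : ℝ) :
    IsClosed (GC (k := k) j I v₀ ε) := by
  rw [← sp_quot.isClosed_preimage]
  have e : sp ⁻¹' GC (k := k) j I v₀ ε = ⋂ c : Fin j → k, {v : Fr k ι j |
      ‖(∑ b, c b • v.1 b) - prj I v₀ (∑ b, c b • v.1 b)‖ ≤ ε * ‖∑ b, c b • v.1 b‖} := by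
    ext v
    simp only [mem_preimage, mem_iInter, mem_setOf_eq]
    constructor
    · intro h c
      exact h _ ((Submodule.mem_span_range_iff_exists_fun k).2 ⟨c, rfl⟩)
    · intro h w hw
      obtain ⟨c, rfl⟩ := (Submodule.mem_span_range_iff_exists_fun k).1 hw
      exact h c
  rw [e]
  refine isClosed_iInter fun c => ?_
  have h1 : Continuous fun v : Fr k ι j => ∑ b, c b • v.1 b :=
    continuous_finsetSum _ fun b _ =>
      (continuous_const_smul (c b)).comp ((continuous_apply b).comp fr_val_cont)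
  exact isClosed_le (h1.sub ((prj_cont I v₀).comp h1)).norm (continuous_const.mul h1.norm)

theorem GC_sub {i j : ℕ} {I : Fin 3 → ι} {v₀ : Fin 3 → ι → k} {ε : ℝ} {L : Gr k ι i}
    {M : Gr k ι j} (h : L.1 ≤ M.1) (hM : M ∈ GC j I v₀ ε) : L ∈ GC i I v₀ ε :=
  fun w hw => hM w (h hw)

theorem GC_inj {I : Fin 3 → ι} {v₀ : Fin 3 → ι → k} {ε : ℝ} (hε : ε < 1) {L : Gr k ι j}
    (hL : L ∈ GC j I v₀ ε) : Inj I L.1 := by
  intro w hw h0
  have h1 := hL w hw
  have h2 : prj I v₀ w = 0 := by simp [prj, h0]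
  rw [h2, sub_zero] at h1
  by_contra hne
  have := norm_pos_iff.2 hne
  nlinarith

/-- the projection almost fixes the vectors of the subspaces near the span of `v₀` -/
theorem near_frame {I : Fin 3 → ι} {v₀ : Fin 3 → ι → k} (hv₀ : v₀ ∈ ch (k := k) I) {δ : ℝ}
    (hδ : 0 < δ) (hδ1 : δ ≤ 1 / 6) {v : Fr k ι 3} (hv : ∀ b i, ‖v.1 b i - v₀ b i‖ < δ) :
    sp v ∈ GC 3 I v₀ (24 * δ) := by
  intro w hw
  obtain ⟨c, hc⟩ := (Submodule.mem_span_range_iff_exists_fun k).1 hw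
  have hcn : ∀ b, ‖c b‖ ≤ ‖c‖ := fun b => norm_le_pi_norm c b
  have h1 : ∀ i, w i = ∑ b, c b * v.1 b i := fun i => by
    rw [← hc]
    simp [Finset.sum_apply]
  have h2 : ∀ i, ‖w i - ∑ b, c b * v₀ b i‖ ≤ 3 * (δ * ‖c‖) := by
    intro i
    rw [h1, ← Finset.sum_sub_distrib]
    refine (norm_sum_le _ _).trans ?_
    calc ∑ b : Fin 3, ‖c b * v.1 b i - c b * v₀ b i‖ ≤ ∑ _b : Fin 3, δ * ‖c‖ := by
          refine Finset.sum_le_sum fun b _ => ?_
          rw [← mul_sub, norm_mul, mul_comm]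
          exact mul_le_mul (hv b i).le (hcn b) (norm_nonneg _) hδ.le
      _ = 3 * (δ * ‖c‖) := by simp
  have h3 : ∀ a, ‖w (I a) - c a‖ ≤ 3 * (δ * ‖c‖) := by
    intro a
    have := h2 (I a)
    have e : ∑ b, c b * v₀ b (I a) = c a := by
      simp only [hv₀.1, Matrix.one_apply]
      simp
    rwa [e] at this
  have h4 : ‖c‖ ≤ 2 * ‖w‖ := by
    have h5 : ∀ a, ‖c a‖ ≤ ‖w‖ + 3 * (δ * ‖c‖) := by
      intro a
      have h6 := norm_le_pi_norm w (I a)
      have h7 := norm_sub_norm_le (c a) (w (I a))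
      have h8 := h3 a
      rw [norm_sub_rev] at h8
      linarith
    have h6 : ‖c‖ ≤ ‖w‖ + 3 * (δ * ‖c‖) :=
      (pi_norm_le_iff_of_nonneg (by positivity)).2 h5
    have : 3 * (δ * ‖c‖) ≤ ‖c‖ / 2 := by nlinarith [norm_nonneg c]
    linarith
  refine (pi_norm_le_iff_of_nonneg (by positivity)).2 fun i => ?_
  have e1 : (w - prj I v₀ w) i = (w i - ∑ b, c b * v₀ b i) - ∑ b, (w (I b) - c b) * v₀ b i := by
    simp only [Pi.sub_apply, prj, Finset.sum_apply, Pi.smul_apply, smul_eq_mul, sub_mul,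
      Finset.sum_sub_distrib]
    ring
  rw [e1]
  refine (norm_sub_le _ _).trans ?_
  have h5 : ‖∑ b, (w (I b) - c b) * v₀ b i‖ ≤ 9 * (δ * ‖c‖) := by
    refine (norm_sum_le _ _).trans ?_
    calc ∑ b : Fin 3, ‖(w (I b) - c b) * v₀ b i‖ ≤ ∑ _b : Fin 3, 3 * (δ * ‖c‖) := by
          refine Finset.sum_le_sum fun b _ => ?_
          rw [norm_mul]
          calc ‖w (I b) - c b‖ * ‖v₀ b i‖ ≤ 3 * (δ * ‖c‖) * 1 :=
                mul_le_mul (h3 b) (hv₀.2 b i) (norm_nonneg _) (by positivity)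
            _ = _ := mul_one _
      _ = 9 * (δ * ‖c‖) := by simp; ring
  have := h2 i
  nlinarith [norm_nonneg c, norm_nonneg w]

variable [ProperSpace k]

/-- **small cells** -/
theorem exists_cells [MeasurableSpace (Gr k ι 3)] [BorelSpace (Gr k ι 3)] {ε : ℝ} (hε : 0 < ε) :
    ∃ (m : ℕ) (I : Fin m → Fin 3 → ι) (v₀ : Fin m → Fin 3 → ι → k) (C : Fin m → Set (Gr k ι 3)),
      (∀ i, v₀ i ∈ ch (k := k) (I i)) ∧ (∀ i, MeasurableSet (C i)) ∧
      (∀ i j, i ≠ j → Disjoint (C i) (C j)) ∧ (∀ z, ∃ i, z ∈ C i) ∧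
      ∀ i, C i ⊆ GC 3 (I i) (v₀ i) ε := by
  classical
  set δ : ℝ := min (1 / 6) (ε / 24) with hδ
  have hδ0 : 0 < δ := lt_min (by norm_num) (by positivity)
  have h0 : ∀ L : Gr k ι 3, ∃ (I : Fin 3 → ι) (v : Fr k ι 3), v.1 ∈ ch (k := k) I ∧ sp v = L :=
    fun L => exists_ch L
  choose I v hv hL using h0
  have hop : ∀ L : Gr k ι 3, IsOpen (sp '' {u : Fr k ι 3 | ∀ b i, ‖u.1 b i - (v L).1 b i‖ < δ}) := by
    intro L
    refine sp_open _ ?_
    have e : {u : Fr k ι 3 | ∀ b i, ‖u.1 b i - (v L).1 b i‖ < δ} = ⋂ b, ⋂ i,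
        {u : Fr k ι 3 | ‖u.1 b i - (v L).1 b i‖ < δ} := by
      ext u
      simp
    rw [e]
    refine isOpen_iInter_of_finite fun b => isOpen_iInter_of_finite fun i => ?_
    have h1 : Continuous fun u : Fr k ι 3 => u.1 b i :=
      (continuous_apply i).comp ((continuous_apply b).comp fr_val_cont)
    exact isOpen_lt (h1.sub continuous_const).norm continuous_const
  obtain ⟨t, ht⟩ := isCompact_univ.elim_finite_subcover
    (fun L : Gr k ι 3 => sp '' {u : Fr k ι 3 | ∀ b i, ‖u.1 b i - (v L).1 b i‖ < δ}) hop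
    (fun L _ => mem_iUnion.2 ⟨L, v L, fun b i => by simpa using hδ0, hL L⟩)
  let e := t.equivFin
  obtain ⟨C, hC1, hC2, hC3, hC4⟩ := exists_partition (m := t.card)
    (fun i => sp '' {u : Fr k ι 3 | ∀ b i', ‖u.1 b i' - (v (e.symm i).1).1 b i'‖ < δ})
    (fun i => hop _) (fun z => by
      obtain ⟨L, hLt, hz⟩ := mem_iUnion₂.1 (ht (mem_univ z))
      refine ⟨e ⟨L, hLt⟩, ?_⟩
      rw [e.symm_apply_apply]
      exact hz)
  refine ⟨t.card, fun i => I (e.symm i).1, fun i => (v (e.symm i).1).1, C, fun i => hv _, hC1, hC2,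
    hC3, fun i z hz => ?_⟩
  obtain ⟨u, hu, rfl⟩ := hC4 i hz
  have h1 := near_frame (hv (e.symm i).1) hδ0 (min_le_left _ _) hu
  intro w hw
  refine (h1 w hw).trans ?_
  have : 24 * δ ≤ ε := by
    have := min_le_right (1 / 6 : ℝ) (ε / 24)
    rw [← hδ] at this
    linarith
  exact mul_le_mul_of_nonneg_right this (norm_nonneg _)

end Vale.Agent.P092.H99.Sec
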