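import Vale.Agent.P092.H99.Slice
import Vale.Agent.P092.H874.Fn

/-!
P092, TEAM N, block [N-K] (helper99): the plane estimate for linear maps (`KL`, helper874's
`kak_lin`) relative to a projection.
-/

set_option linter.all false

namespace Vale.Agent.P092.H99

open MeasureTheory Finset Vale.Agent.P092.H361 Vale.Agent.P092.H175.Kb Vale.Agent.P092.H464
open Vale.Agent.P092.H874 (Fn AFn block exists_part exists_fn)

/-- **the plane estimate for linear maps** (literal of helper874, #6110) -/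
def KL (X Y K E : Type) [MeasurableSpace X] [MeasurableSpace Y] [NormedAddCommGroup K]
    [InnerProductSpace ℂ K] [CompleteSpace K] [NormedAddCommGroup E] [NormedSpace ℝ E] : Prop :=
  ∀ C : ℝ, 1 ≤ C → ∃ D : ℝ, 0 ≤ D ∧ ∀ (s : X → Fin 3 → ℝ) (t : Y → Fin 3 → ℝ), Measurable s →
    Measurable t → (∀ x, s x ≠ 0) → (∀ y, t y ≠ 0) →
    ∀ (Pb Pc : Set X → (K →L[ℂ] K)) (Ll Lm : Set Y → (K →L[ℂ] K)), Pv Pb → Pv Pc → Pv Ll → Pv Lm →
    CI (Inc s t) Pb Ll → CI (Inc s t) Pc Ll → CI (Inc s t) Pc Lm →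
    ∀ (κ : Type) (S : Finset κ) (T : κ → (Fin 3 → ℝ) →ₗ[ℝ] E) (G : κ → E → ℂ)
      (η : κ → Fin 3 → ℝ) (β : κ → E) (W : κ → (K →L[ℂ] K)) (r : ℝ) (N : ℕ), 0 < r → r ≤ 1 →
    (∀ k ∈ S, (∃ j, η k j = 1) ∧ ∀ i, |η k i| ≤ 1) →
    (∀ y0 : Fin 3 → ℝ, #{k ∈ S | ∀ i, |η k i - y0 i| ≤ r} ≤ N) →
    (∀ k ∈ S, ‖β k‖ ≤ C ∧ ∀ v, ‖T k v - (η k ⬝ᵥ v) • β k‖ ≤ C * r * ‖v‖ ∧
      |η k ⬝ᵥ v| ≤ C * ‖T k v‖ ∧ r * ‖v‖ ≤ C * ‖T k v‖) →
    (∀ k ∈ S, (∀ a, ‖G k a‖ ≤ 1) ∧ (∀ a b, ‖G k a - G k b‖ * ‖a‖ ≤ C * ‖a - b‖) ∧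
      ∀ (c : ℝ) a, c ≠ 0 → G k (c • a) = G k a) →
    (∀ k ∈ S, Measurable fun x => G k (T k (s x))) →
    (∀ k ∈ S, Fn Pb (fun x => G k (T k (s x))) (W k)) →
    ∀ ξ : K, ∑ k ∈ S, ‖Lm {y | ∀ i i', |t y i * η k i' - t y i' * η k i| ≤ C * r * ‖t y‖}
      (W k ξ)‖ ^ 2 ≤ D * N * (1 + Real.log (1 / r)) ^ 6 * ‖ξ‖ ^ 2

variable {K : Type*} [NormedAddCommGroup K] [InnerProductSpace ℂ K] [CompleteSpace K]

section gen

variable {X : Type*} [MeasurableSpace X] {P : Set X → (K →L[ℂ] K)}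

/-- an operator commuting with the measure commutes with the calculus -/
theorem fn_comm (hP : Pv P) {F : X → ℂ} (hF : Measurable F) {M : ℝ} (hM : ∀ x, ‖F x‖ ≤ M)
    {W T : K →L[ℂ] K} (hW : Fn P F W) (hT : ∀ A, MeasurableSet A → T * P A = P A * T) :
    T * W = W * T := by
  classical
  have key : ∀ δ : ℝ, 0 < δ → ‖T * W - W * T‖ ≤ 2 * ‖T‖ * δ := by
    intro δ hδ
    obtain ⟨s, A, hA, hd, hu, hs⟩ := exists_part hF hM hδ
    let c : ℤ × ℤ → ℂ := fun i => if h : (A i).Nonempty then F h.choose else 0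
    have hc : ∀ i, ∀ x ∈ A i, ‖F x - c i‖ ≤ δ := by
      intro i x hx
      have h : (A i).Nonempty := ⟨x, hx⟩
      have e : c i = F h.choose := dif_pos h
      rw [e]
      exact hs i x hx _ h.choose_spec
    set V : K →L[ℂ] K := ∑ i ∈ s, c i • P (A i) with hV
    have hVP : ∀ i ∈ s, V * P (A i) = c i • P (A i) := by
      intro i hi
      rw [hV, Finset.sum_mul, Finset.sum_eq_single i]
      · rw [smul_mul_assoc, hP.idem (hA i)]
      · intro j hj hji
        rw [smul_mul_assoc, ← hP.inter _ _ (hA j) (hA i),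
          Set.disjoint_iff_inter_eq_empty.1 (hd j i hji), hP.empty, smul_zero]
      · intro h; exact absurd hi h
    have hPV : ∀ i ∈ s, P (A i) * V = c i • P (A i) := by
      intro i hi
      rw [hV, Finset.mul_sum, Finset.sum_eq_single i]
      · rw [mul_smul_comm, hP.idem (hA i)]
      · intro j hj hji
        rw [mul_smul_comm, ← hP.inter _ _ (hA i) (hA j),
          Set.disjoint_iff_inter_eq_empty.1 (hd i j (Ne.symm hji)), hP.empty, smul_zero]
      · intro h; exact absurd hi h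
    have hD : ‖W - V‖ ≤ δ := by
      have h1 := block hP s A (fun i _ => hA i) (fun i _ j _ hij => hd i j hij) (T := W - V)
        (fun i hi => by rw [sub_mul, mul_sub, hVP i hi, hPV i hi, hW.comm _ (hA i)]) hδ.le
        (fun i hi => by
          have h2 : (W - V) * P (A i) = (W - c i • 1) * P (A i) := by
            rw [sub_mul, sub_mul, hVP i hi, smul_mul_assoc, one_mul]
          rw [h2]
          exact hW.approx _ (hA i) (c i) δ hδ.le (hc i))
      rwa [hu, hP.univ, mul_one] at h1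
    have hTV : T * V = V * T := by
      rw [hV, Finset.mul_sum, Finset.sum_mul]
      refine Finset.sum_congr rfl fun i _ => ?_
      rw [mul_smul_comm, smul_mul_assoc, hT _ (hA i)]
    have e : T * W - W * T = T * (W - V) - (W - V) * T := by
      rw [mul_sub, sub_mul, hTV]; abel
    rw [e]
    calc ‖T * (W - V) - (W - V) * T‖ ≤ ‖T * (W - V)‖ + ‖(W - V) * T‖ := norm_sub_le _ _
      _ ≤ ‖T‖ * δ + δ * ‖T‖ := by
          refine add_le_add ((norm_mul_le _ _).trans ?_) ((norm_mul_le _ _).trans ?_)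
          · exact mul_le_mul_of_nonneg_left hD (norm_nonneg _)
          · exact mul_le_mul_of_nonneg_right hD (norm_nonneg _)
      _ = 2 * ‖T‖ * δ := by ring
  have h0 : ‖T * W - W * T‖ ≤ 0 := by
    refine le_of_forall_pos_le_add fun τ hτ => ?_
    have h1 := key (τ / (2 * ‖T‖ + 1)) (by positivity)
    have h2 : 2 * ‖T‖ * (τ / (2 * ‖T‖ + 1)) ≤ τ := by
      rw [mul_div_assoc', div_le_iff₀ (by positivity)]
      nlinarith [norm_nonneg T]
    linarith
  exact sub_eq_zero.1 (norm_le_zero_iff.1 h0)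

/-- two functions close on `N` -/
theorem fn_close (hP : Pv P) {F F' : X → ℂ} (hF : Measurable F) {M : ℝ} (hM : ∀ x, ‖F x‖ ≤ M)
    {W W' : K →L[ℂ] K} (hW : Fn P F W) (hW' : Fn P F' W') {N : Set X} (hN : MeasurableSet N)
    {δ : ℝ} (hδ : 0 ≤ δ) (h : ∀ x ∈ N, ‖F x - F' x‖ ≤ δ) : ‖(W - W') * P N‖ ≤ δ := by
  have h1 := (Fn.add hP hF hM hW (hW'.smul hP (-1))).approx N hN 0 δ hδ (fun x hx => by
    have := h x hx
    rw [sub_zero, neg_one_mul, ← sub_eq_add_neg]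
    exact this)
  rwa [zero_smul, sub_zero, neg_one_smul, ← sub_eq_add_neg] at h1

theorem md_fn {E : K →L[ℂ] K} {F : X → ℂ} {W : K →L[ℂ] K} (hE : E * E = E) (hEs : star E = E)
    (hPE : CE E P) (hWE : W * E = E * W) (hW : Fn P F W) (x₀ : X) :
    Fn (md E x₀ P) F (W * E + F x₀ • (1 - E)) := by
  classical
  set μ : ℂ := F x₀ with hμ
  have k1 : ∀ A, MeasurableSet A → W * E * (P A * E) = W * P A * E := by
    intro A hA
    rw [mul_assoc, ← mul_assoc E, ← hPE.comm A hA, mul_assoc (P A), hE, mul_assoc]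
  have k2 : ∀ A, MeasurableSet A → (1 - E) * (P A * E) = 0 := by
    intro A hA
    rw [hPE.comm A hA, ← mul_assoc, one_sub_E hE, zero_mul]
  have k3 : W * E * (1 - E) = 0 := by rw [mul_assoc, E_one_sub hE, mul_zero]
  have key : ∀ (c : ℂ) A, MeasurableSet A → (W * E + μ • (1 - E) - c • 1) * md E x₀ P A =
      (W - c • 1) * P A * E + (if x₀ ∈ A then μ - c else 0) • (1 - E) := by
    intro c A hA
    unfold md
    by_cases hx : x₀ ∈ A
    · simp only [hx, if_true]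
      have k5 : (μ • (1 - E)) * (1 - E) = μ • (1 - E) := by
        rw [smul_mul_assoc, one_sub_sq hE]
      have k6 : (μ • (1 - E)) * (P A * E) = 0 := by
        rw [smul_mul_assoc, k2 A hA, smul_zero]
      have k7 : (c • (1 : K →L[ℂ] K)) * (1 - E) = c • (1 - E) := by
        rw [smul_mul_assoc, one_mul]
      have k8 : (c • (1 : K →L[ℂ] K)) * (P A * E) = c • (1 : K →L[ℂ] K) * P A * E := by
        rw [mul_assoc]
      rw [mul_add, sub_mul, sub_mul, add_mul, add_mul, k1 A hA, k6, k3, k5, k7, k8, sub_smul,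
        sub_mul, sub_mul]
      abel
    · simp only [hx, if_false]
      rw [add_zero, sub_mul, add_mul, k1 A hA, smul_mul_assoc, k2 A hA, smul_mul_assoc, one_mul,
        sub_mul, sub_mul, smul_mul_assoc, one_mul, smul_mul_assoc]
      simp only [smul_zero, add_zero, zero_smul]
  refine ⟨?_, ?_⟩
  · intro A hA
    have e1 : (W * E + μ • (1 - E)) * md E x₀ P A = W * P A * E +
        (if x₀ ∈ A then μ else 0) • (1 - E) := by
      have := key 0 A hA
      simpa using this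
    have e2 : md E x₀ P A * (W * E + μ • (1 - E)) = W * P A * E +
        (if x₀ ∈ A then μ else 0) • (1 - E) := by
      unfold md
      have q1 : P A * E * (W * E) = W * P A * E := by
        rw [mul_assoc, ← mul_assoc E, ← hWE, mul_assoc W, hE, ← mul_assoc, ← hW.comm A hA]
      have q2 : (1 - E) * (W * E) = 0 := by rw [hWE, ← mul_assoc, one_sub_E hE, zero_mul]
      have q3 : P A * E * (1 - E) = 0 := by rw [mul_assoc, E_one_sub hE, mul_zero]
      by_cases hx : x₀ ∈ A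
      · simp only [hx, if_true]
        rw [add_mul, mul_add, q1, mul_smul_comm, q3, mul_add, q2, mul_smul_comm, one_sub_sq hE]
        simp
      · simp only [hx, if_false]
        rw [add_zero, mul_add, q1, mul_smul_comm, q3]
        simp
    rw [e1, e2]
  · intro A hAm c ε hε hF
    rw [key c A hAm]
    have h1 : ‖(W - c • 1) * P A‖ ≤ ε := hW.approx A hAm c ε hε hF
    have hTE : (W - c • 1) * P A * E = E * ((W - c • 1) * P A) := by
      rw [mul_assoc, hPE.comm A hAm, ← mul_assoc, ← mul_assoc, sub_mul, hWE, mul_sub,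
        smul_mul_assoc, one_mul, mul_smul_comm, mul_one]
    have hEn : ‖E‖ ≤ 1 := by
      have h4 : ‖E‖ * ‖E‖ = ‖E‖ := by
        have := CStarRing.norm_star_mul_self (x := E)
        rw [hEs, hE] at this
        exact this.symm
      by_contra h5
      rw [not_le] at h5
      nlinarith
    refine norm_md_le hE hEs hTE hε ?_ ?_
    · calc ‖(W - c • 1) * P A * E‖ ≤ ‖(W - c • 1) * P A‖ * ‖E‖ := norm_mul_le _ _
        _ ≤ ε * 1 := mul_le_mul h1 hEn (norm_nonneg _) hε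
        _ = ε := mul_one _
    · by_cases hx : x₀ ∈ A
      · simp only [hx, if_true]
        exact hF x₀ hx
      · simp only [hx, if_false, norm_zero]
        exact hε

end gen

/-- **the plane estimate for linear maps, relative to a projection** -/
theorem kl_rel {X Y K E : Type} [MeasurableSpace X] [MeasurableSpace Y] [NormedAddCommGroup K]
    [InnerProductSpace ℂ K] [CompleteSpace K] [NormedAddCommGroup E] [NormedSpace ℝ E]
    (hKL : KL X Y K E) (C : ℝ) (hC : 1 ≤ C) : ∃ D : ℝ, 0 ≤ D ∧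
    ∀ (p : K →L[ℂ] K), p * p = p → star p = p → ∀ (s : X → Fin 3 → ℝ) (t : Y → Fin 3 → ℝ),
    Measurable s → Measurable t → (∀ x, s x ≠ 0) → (∀ y, t y ≠ 0) →
    ∀ (Pb Pc : Set X → (K →L[ℂ] K)) (Ll Lm : Set Y → (K →L[ℂ] K)), Pv Pb → Pv Pc → Pv Ll → Pv Lm →
    CE p Pb → CE p Pc → CE p Ll → CE p Lm →
    CIR p (Inc s t) Pb Ll → CIR p (Inc s t) Pc Ll → CIR p (Inc s t) Pc Lm →
    ∀ (κ : Type) (S : Finset κ) (T : κ → (Fin 3 → ℝ) →ₗ[ℝ] E) (G : κ → E → ℂ)
      (η : κ → Fin 3 → ℝ) (β : κ → E) (W : κ → (K →L[ℂ] K)) (r : ℝ) (N : ℕ), 0 < r → r ≤ 1 →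
    (∀ k ∈ S, (∃ j, η k j = 1) ∧ ∀ i, |η k i| ≤ 1) →
    (∀ y0 : Fin 3 → ℝ, #{k ∈ S | ∀ i, |η k i - y0 i| ≤ r} ≤ N) →
    (∀ k ∈ S, ‖β k‖ ≤ C ∧ ∀ v, ‖T k v - (η k ⬝ᵥ v) • β k‖ ≤ C * r * ‖v‖ ∧
      |η k ⬝ᵥ v| ≤ C * ‖T k v‖ ∧ r * ‖v‖ ≤ C * ‖T k v‖) →
    (∀ k ∈ S, (∀ a, ‖G k a‖ ≤ 1) ∧ (∀ a b, ‖G k a - G k b‖ * ‖a‖ ≤ C * ‖a - b‖) ∧
      ∀ (c : ℝ) a, c ≠ 0 → G k (c • a) = G k a) →
    (∀ k ∈ S, Measurable fun x => G k (T k (s x))) →
    (∀ k ∈ S, Fn Pb (fun x => G k (T k (s x))) (W k)) →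
    (∀ k ∈ S, W k * p = p * W k) →
    ∀ ξ : K, ∑ k ∈ S, ‖Lm {y | ∀ i i', |t y i * η k i' - t y i' * η k i| ≤ C * r * ‖t y‖}
      (W k (p ξ))‖ ^ 2 ≤ D * N * (1 + Real.log (1 / r)) ^ 6 * ‖p ξ‖ ^ 2 := by
  classical
  obtain ⟨D, hD, key⟩ := hKL C hC
  refine ⟨D, hD, ?_⟩
  intro p hp hps s t hs ht hs0 ht0 Pb Pc Ll Lm hb hc hl hm hbE hcE hlE hmE hbl hcl hcm κ S T G η β W
    r N hr hr1 hη hcnt hβ hG hGm hW hWE ξ
  have hEE : ∀ v, p (p v) = p v := fun v => by
    have := congrArg (fun A : K →L[ℂ] K => A v) hp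
    exact this
  by_cases h0 : ∃ x₀ : X, ∃ y₀ : Y, Inc s t x₀ y₀
  · obtain ⟨x₀, y₀, h0⟩ := h0
    have key := key s t hs ht hs0 ht0 (md p x₀ Pb) (md p x₀ Pc) (md p y₀ Ll) (md p y₀ Lm)
      (md_pv hb hp hps hbE x₀) (md_pv hc hp hps hcE x₀) (md_pv hl hp hps hlE y₀)
      (md_pv hm hp hps hmE y₀) (md_ci hbl hp hbE hlE h0) (md_ci hcl hp hcE hlE h0)
      (md_ci hcm hp hcE hmE h0) κ S T G η β
      (fun k => W k * p + G k (T k (s x₀)) • (1 - p)) r N hr hr1 hη hcnt hβ hG hGm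
      (fun k hk => md_fn hp hps hbE (hWE k hk) (hW k hk) x₀) (p ξ)
    refine le_trans (le_of_eq ?_) key
    refine Finset.sum_congr rfl fun k hk => ?_
    have a1 : (W k * p) (p ξ) = W k (p ξ) := by
      have : (W k * p) (p ξ) = W k (p (p ξ)) := rfl
      rw [this, hEE]
    have a2 : p (W k (p ξ)) = W k (p ξ) := by
      have : (p * W k) (p ξ) = (W k * p) (p ξ) := by rw [hWE k hk]
      rw [a1] at this
      exact this
    have a3 : ((1 : K →L[ℂ] K) - p) (p ξ) = 0 := by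
      rw [ContinuousLinearMap.sub_apply, hEE]
      simp
    have e1 : (W k * p + G k (T k (s x₀)) • (1 - p)) (p ξ) = W k (p ξ) := by
      rw [ContinuousLinearMap.add_apply, ContinuousLinearMap.smul_apply, a1, a3]
      simp
    rw [e1]
    have e2 : md p y₀ Lm {y | ∀ i i', |t y i * η k i' - t y i' * η k i| ≤ C * r * ‖t y‖}
        (p (W k (p ξ))) = Lm {y | ∀ i i', |t y i * η k i' - t y i' * η k i| ≤ C * r * ‖t y‖}
        (p (W k (p ξ))) := by
      have := congrArg (fun T : K →L[ℂ] K => T (W k (p ξ)))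
        (md_E (P := Lm) hp y₀ {y | ∀ i i', |t y i * η k i' - t y i' * η k i| ≤ C * r * ‖t y‖})
      exact this
    rw [a2] at e2
    rw [e2]
  · have hE0 : p = 0 := by
      have h1 := hbl.inc Set.univ Set.univ MeasurableSet.univ MeasurableSet.univ
        (fun x _ ν _ hI => h0 ⟨x, ν, hI⟩)
      rw [hb.univ, hl.univ, one_mul, one_mul] at h1
      exact h1
    rw [hE0]
    simp

end Vale.Agent.P092.H99
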