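import Vale.Agent.P092.H99.KnA
import Vale.Agent.P092.H99.RelLin

/-!
P092, TEAM N, block [N-K] (helper99): **the line estimate for every dimension from the plane
estimate, by slicing** (`K = ℝ`).
-/

set_option linter.all false

open Module Set MeasureTheory
open scoped Matrix

namespace Vale.Agent.P092.H99.Lin

open Vale.Agent.P092.H100.Gr Vale.Agent.P092.H99 Vale.Agent.P092.H99.Sec
open Vale.Agent.P092.H835.PlF Vale.Agent.P092.H464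
open Vale.Agent.P092.H87.N Vale.Agent.P092.H820 Vale.Agent.P092.H835
open Vale.Agent.P092.H874 (Fn AFn block exists_part exists_fn)

section aux

variable {ι : Type*} [Fintype ι]

theorem ball_closed {k : Type*} [NontriviallyNormedField k] (η : ι → k) (c : ℝ) :
    IsClosed {y : Gr k ι 1 | ∀ w ∈ y.1, ‖wd w η‖ ≤ c * ‖w‖} := by
  rw [← sp_quot.isClosed_preimage]
  have e : sp ⁻¹' {y : Gr k ι 1 | ∀ w ∈ y.1, ‖wd w η‖ ≤ c * ‖w‖} = ⋂ a : k, {v : Fr k ι 1 |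
      ‖wd (a • v.1 0) η‖ ≤ c * ‖a • v.1 0‖} := by
    ext v
    simp only [mem_preimage, mem_iInter, mem_setOf_eq]
    constructor
    · intro h a
      exact h _ (mem_sp1.2 ⟨a, rfl⟩)
    · intro h w hw
      obtain ⟨a, rfl⟩ := mem_sp1.1 hw
      exact h a
  rw [e]
  refine isClosed_iInter fun a => ?_
  have h1 : Continuous fun v : Fr k ι 1 => a • v.1 0 :=
    (continuous_const_smul a).comp ((continuous_apply 0).comp fr_val_cont)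
  exact isClosed_le (wd_continuous.comp (h1.prodMk continuous_const)).norm
    (continuous_const.mul h1.norm)

theorem meas_disc {Y : Type*} [MeasurableSpace Y] {t : Y → Fin 3 → ℝ} (ht : Measurable t)
    (η : Fin 3 → ℝ) (c : ℝ) :
    MeasurableSet {y | ∀ i i', |t y i * η i' - t y i' * η i| ≤ c * ‖t y‖} := by
  have e : {y | ∀ i i', |t y i * η i' - t y i' * η i| ≤ c * ‖t y‖} = ⋂ i, ⋂ i',
      {y | |t y i * η i' - t y i' * η i| ≤ c * ‖t y‖} := by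
    ext y
    simp
  rw [e]
  refine MeasurableSet.iInter fun i => MeasurableSet.iInter fun i' => ?_
  have h1 : ∀ i, Measurable fun y => t y i := fun i => (measurable_pi_apply i).comp ht
  exact measurableSet_le (((h1 i).mul measurable_const).sub ((h1 i').mul measurable_const)).abs
    (measurable_const.mul ht.norm)

theorem meas_G {E : Type*} [NormedAddCommGroup E] [NormedSpace ℝ E] [MeasurableSpace E]
    [BorelSpace E] {G : E → ℂ} {C : ℝ} (hG : ∀ a b, ‖G a - G b‖ * ‖a‖ ≤ C * ‖a - b‖) :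
    Measurable G := by
  refine measurable_of_continuousOn_compl_singleton 0 ?_
  intro a ha
  have ha0 : a ≠ 0 := ha
  refine ContinuousAt.continuousWithinAt ?_
  have hn : 0 < ‖a‖ := norm_pos_iff.2 ha0
  rw [Metric.continuousAt_iff]
  intro ε hε
  refine ⟨ε * ‖a‖ / (|C| + 1), by positivity, fun b hb => ?_⟩
  rw [dist_eq_norm] at hb ⊢
  rw [norm_sub_rev] at hb ⊢
  have h1 := hG a b
  have h2 : C * ‖a - b‖ ≤ |C| * ‖a - b‖ := by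
    have := le_abs_self C
    gcongr
  have h3 : (|C| + 1) * ‖a - b‖ < ε * ‖a‖ := by
    rw [lt_div_iff₀ (by positivity)] at hb
    linarith
  have h4 : ‖G a - G b‖ * ‖a‖ < ε * ‖a‖ := by
    have := norm_nonneg (a - b)
    nlinarith
  exact lt_of_mul_lt_mul_right h4 hn.le

theorem meas_pl [MeasurableSpace (Gr ℝ ι 2)] [BorelSpace (Gr ℝ ι 2)] {G : (ι × ι → ℝ) → ℂ} {C : ℝ}
    (hG : ∀ a b, ‖G a - G b‖ * ‖a‖ ≤ C * ‖a - b‖) (hG3 : ∀ (c : ℝ) a, c ≠ 0 → G (c • a) = G a)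
    (A : Matrix ι ι ℝ) : Measurable fun x : Gr ℝ ι 2 => G (PlF.sq A *ᵥ pl x) := by
  letI : MeasurableSpace (Fr ℝ ι 2) := borel _
  haveI : BorelSpace (Fr ℝ ι 2) := ⟨rfl⟩
  haveI : PolishSpace (Fr ℝ ι 2) := by
    have h1 : IsOpen {v : Fin 2 → ι → ℝ | LinearIndependent ℝ v} := by
      have e : {v : Fin 2 → ι → ℝ | LinearIndependent ℝ v} = ⋃ I : Fin 2 → ι, {v | mn I v ≠ 0} := by
        ext v
        simp only [mem_setOf_eq, mem_iUnion]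
        exact li_iff
      rw [e]
      exact isOpen_iUnion fun I => (mn_cont I).isOpen_preimage _ isOpen_compl_singleton
    exact h1.polishSpace
  have h1 : Measurable (sp : Fr ℝ ι 2 → Gr ℝ ι 2) := sp_cont.measurable
  rw [← h1.measurable_comp_iff_of_surjective sp_surj]
  have e : ((fun x : Gr ℝ ι 2 => G (PlF.sq A *ᵥ pl x)) ∘ sp) =
      fun v : Fr ℝ ι 2 => G (PlF.sq A *ᵥ wd (v.1 0) (v.1 1)) := by
    funext v
    obtain ⟨D, hD, h⟩ := (sp_eq v (fr (sp v))).1 (sp_fr _).symm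
    have e0 : ∀ b i, (fr (sp v)).1 b i = D b 0 * v.1 0 i + D b 1 * v.1 1 i := fun b i => by
      rw [h]
      simp [cb, Fin.sum_univ_two]
    have e1 : pl (sp v) = D.det • wd (v.1 0) (v.1 1) := by
      funext p
      simp only [pl, wd, Pi.smul_apply, smul_eq_mul, e0, Matrix.det_fin_two]
      ring
    change G (PlF.sq A *ᵥ pl (sp v)) = _
    rw [e1, Matrix.mulVec_smul, hG3 _ _ hD]
  rw [e]
  refine (meas_G hG).comp ?_
  have h2 : Continuous fun v : Fr ℝ ι 2 => PlF.sq A *ᵥ wd (v.1 0) (v.1 1) := by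
    refine Continuous.matrix_mulVec continuous_const ?_
    exact wd_continuous.comp (((continuous_apply 0).comp fr_val_cont).prodMk
      ((continuous_apply 1).comp fr_val_cont))
  exact h2.measurable

/-- insertion of the cell of points -/
theorem ins_pt {K : Type*} [NormedAddCommGroup K] [InnerProductSpace ℂ K] [CompleteSpace K]
    {X Z : Type*} [MeasurableSpace X] [MeasurableSpace Z] {P : Set X → (K →L[ℂ] K)}
    {Q : Set Z → (K →L[ℂ] K)} {J : X → Z → Prop} (hP : Pv P) (hPQ : CI J P Q) {C : Set Z}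
    (hC : MeasurableSet C) {N : Set X} (hN : MeasurableSet N)
    (hNC : ∀ x, x ∉ N → ∀ z ∈ C, ¬ J x z) (ζ : K) : Q C ζ = P N (Q C ζ) := by
  have h0 : P Nᶜ * Q C = 0 := hPQ.inc _ _ hN.compl hC fun x hx z hz => hNC x hx z hz
  rw [hP.compl N hN, sub_mul, one_mul, sub_eq_zero] at h0
  exact congrArg (fun T : K →L[ℂ] K => T ζ) h0

end aux

/-- the constant of a slice -/
noncomputable def Cs (n C : ℝ) : ℝ :=
  C + 6 * n ^ 2 * C ^ 2 + 36 * n * C ^ 2 * (1 + n * (4 * C + 1)) + 72 * n ^ 3 * C ^ 3 * C +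
    3 * n ^ 2 * C ^ 2 + 36 * C

theorem Cs_ge {n C : ℝ} (hn0 : 0 ≤ n) (hC0 : 0 < C) : C ≤ Cs n C ∧ 6 * n ^ 2 * C ^ 2 ≤ Cs n C ∧
    36 * n * C ^ 2 * (1 + n * (4 * C + 1)) ≤ Cs n C ∧ 72 * n ^ 3 * C ^ 3 * C ≤ Cs n C ∧
    3 * n ^ 2 * C ^ 2 ≤ Cs n C ∧ 36 * C ≤ Cs n C := by
  have a1 : 0 ≤ 6 * n ^ 2 * C ^ 2 := by positivity
  have a2 : 0 ≤ 36 * n * C ^ 2 * (1 + n * (4 * C + 1)) := by positivity
  have a3 : 0 ≤ 72 * n ^ 3 * C ^ 3 * C := by positivity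
  have a4 : 0 ≤ 3 * n ^ 2 * C ^ 2 := by positivity
  unfold Cs
  refine ⟨?_, ?_, ?_, ?_, ?_, ?_⟩ <;> linarith

/-- **one slice** -/
theorem one_slice {ι K : Type} [Fintype ι] [NormedAddCommGroup K] [InnerProductSpace ℂ K]
    [CompleteSpace K] [MeasurableSpace (Gr ℝ ι 1)] [BorelSpace (Gr ℝ ι 1)]
    [MeasurableSpace (Gr ℝ ι 2)] [BorelSpace (Gr ℝ ι 2)] [MeasurableSpace (Gr ℝ ι 3)]
    [BorelSpace (Gr ℝ ι 3)] (hKL : KL (Gr ℝ ι 2) (Gr ℝ ι 1) K (ι × ι → ℝ)) {C : ℝ} (hC : 1 ≤ C) :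
    ∃ D : ℝ, 0 ≤ D ∧ ∀ (Pb Pc : Set (Gr ℝ ι 2) → (K →L[ℂ] K))
      (Ll Lm : Set (Gr ℝ ι 1) → (K →L[ℂ] K)) (Q : Set (Gr ℝ ι 3) → (K →L[ℂ] K)),
      Pv Pb → Pv Pc → Pv Ll → Pv Lm → Pv Q →
      CI (fun x y => y.1 ≤ x.1) Pb Ll → CI (fun x y => y.1 ≤ x.1) Pc Ll →
      CI (fun x y => y.1 ≤ x.1) Pc Lm →
      CI (fun x z => x.1 ≤ z.1) Pb Q → CI (fun x z => x.1 ≤ z.1) Pc Q →
      CI (fun y z => y.1 ≤ z.1) Ll Q → CI (fun y z => y.1 ≤ z.1) Lm Q →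
      ∀ (I : Fin 3 → ι) (v₀ : Fin 3 → ι → ℝ) (ε : ℝ) (Cc : Set (Gr ℝ ι 3)),
      v₀ ∈ ch (k := ℝ) I → ε ≤ 1 / 2 → MeasurableSet Cc → Cc ⊆ GC 3 I v₀ ε →
      ∀ (κ : Type) (S : Finset κ) (A B : κ → Matrix ι ι ℝ) (N : κ → ℝ) (η : κ → ι → ℝ) (j₀ : ι)
        (G : (ι × ι → ℝ) → ℂ) (W : κ → (K →L[ℂ] K)) (mm : κ → Fin 3) (r : ℝ) (M : ℕ),
      0 < r → r ≤ 1 → (4 * C + 1) * r ≤ 1 / 2 → (∀ k ∈ S, Hw (A k) (B k) (N k) r C) →
      (∀ k ∈ S, ‖A k *ᵥ η k‖ ≤ C * (r * N k) * ‖η k‖) → (∀ k ∈ S, ‖η k‖ = 1) →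
      (∀ k ∈ S, η k j₀ = 1) →
      (∀ k ∈ S, ‖η k - prj I v₀ (η k)‖ ≤ (4 * C + 1) * r ∧
        (∀ a, |η k (I a)| ≤ |η k (I (mm k))|) ∧ 1 / 6 ≤ |η k (I (mm k))|) →
      (∀ x : ι → ℝ, (S.filter fun k => ‖η k - x‖ ≤ (18 * (4 * C + 1) + 42) * r).card ≤ M) →
      (∀ a, ‖G a‖ ≤ 1) → (∀ a b, ‖G a - G b‖ * ‖a‖ ≤ C * ‖a - b‖) →
      (∀ (c : ℝ) a, c ≠ 0 → G (c • a) = G a) →
      (∀ k ∈ S, Fn Pb (fun x => G (Tm (A k) (N k) v₀ (sec (J2 I) x))) (W k)) →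
      (∀ k ∈ S, W k * Q Cc = Q Cc * W k) →
      ∀ ξ : K, ∑ k ∈ S, ‖Lm {y | ∀ a a', |sec (J1 I) y a * (η k (I a') / η k (I (mm k))) -
        sec (J1 I) y a' * (η k (I a) / η k (I (mm k)))| ≤ Cs (cn ι) C * r * ‖sec (J1 I) y‖}
        (W k (Q Cc ξ))‖ ^ 2 ≤ D * M * (1 + Real.log (1 / r)) ^ 6 * ‖Q Cc ξ‖ ^ 2 := by
  classical
  have hn0 : 0 ≤ cn ι := cn_nonneg (ι := ι)
  have hC0 : 0 < C := by linarith
  obtain ⟨b1, b2, b3, b4, b5, b6⟩ := Cs_ge hn0 hC0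
  obtain ⟨D, hD, key⟩ := kl_rel hKL (Cs (cn ι) C) (hC.trans b1)
  refine ⟨D, hD, ?_⟩
  intro Pb Pc Ll Lm Q hb hc hl hm hQ hbl hcl hcm hbQ hcQ hlQ hmQ I v₀ ε Cc hv₀ hε2 hCm hCs κ S A B N
    η j₀ G W mm r M hr hr1 hsm hHw hAη hηn hηj hS1 hcnt hG1 hG2 hG3 hW hWQ ξ
  have hGm : MeasurableSet (GC (k := ℝ) (ι := ι) 2 I v₀ ε) := (GC_closed _ _ _ _).measurableSet
  have hNC2 : ∀ x : Gr ℝ ι 2, x ∉ GC 2 I v₀ ε → ∀ z ∈ Cc, ¬ x.1 ≤ z.1 :=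
    fun x hx z hz hxz => hx (GC_sub hxz (hCs hz))
  have hinc : ∀ x ∈ GC (k := ℝ) (ι := ι) 2 I v₀ ε, ∀ y : Gr ℝ ι 1, y.1 ≤ x.1 →
      Inc (sec (J2 I)) (sec (J1 I)) x y := fun x hx y hyx =>
    inc_exact (GC_inj (by linarith) hx) hyx
  have hne : ∀ k ∈ S, η k (I (mm k)) ≠ 0 := by
    intro k hk h0
    have := (hS1 k hk).2.2
    rw [h0, abs_zero] at this
    norm_num at this
  refine key (Q Cc) (hQ.idem hCm) (hQ.sa _ hCm) (sec (J2 I)) (sec (J1 I))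
    (meas_sec _) (meas_sec _) (sec_ne _) (sec_ne _) Pb Pc Ll Lm hb hc hl hm (ce_of hbQ hCm)
    (ce_of hcQ hCm) (ce_of hlQ hCm) (ce_of hmQ hCm)
    (rel_ci hb hbl hbQ hCm hGm hNC2 hinc)
    (rel_ci hc hcl hcQ hCm hGm hNC2 hinc)
    (rel_ci hc hcm hcQ hCm hGm hNC2 hinc) κ S
    (fun k => Tm (A k) (N k) v₀) (fun _ => G) (fun k a => η k (I a) / η k (I (mm k)))
    (fun k => Tm (A k) (N k) v₀ (Pi.single (mm k) 1)) W r M hr hr1 ?_ ?_ ?_ ?_ ?_ hW hWQ ξ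
  · intro k hk
    refine ⟨⟨mm k, div_self (hne k hk)⟩, fun a => ?_⟩
    change |η k (I a) / η k (I (mm k))| ≤ 1
    rw [abs_div]
    exact div_le_one_of_le₀ ((hS1 k hk).2.1 a) (abs_nonneg _)
  · intro y0
    rcases (S.filter fun k => ∀ a, |η k (I a) / η k (I (mm k)) - y0 a| ≤ r).eq_empty_or_nonempty
      with h | h
    · rw [h]; simp
    · obtain ⟨k₁, hk₁⟩ := h
      obtain ⟨hk1, hk2⟩ := Finset.mem_filter.1 hk₁
      refine le_trans (Finset.card_le_card fun k hk => ?_) (hcnt (η k₁))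
      obtain ⟨hk3, hk4⟩ := Finset.mem_filter.1 hk
      have s1 := hS1 k hk3
      have s2 := hS1 k₁ hk1
      refine Finset.mem_filter.2 ⟨hk3, ?_⟩
      have h5 := lemC hv₀ hr (by positivity) hsm (hηn k hk3).le (hηn k₁ hk1).le (hηj k hk3)
        (hηj k₁ hk1) s1.1 s2.1 s1.2.1 s2.2.1 (hne k hk3) (hne k₁ hk1) hk4 hk2
      refine h5.trans (mul_le_mul_of_nonneg_right ?_ hr.le)
      linarith
  · intro k hk
    have s1 := hS1 k hk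
    have hw := hHw k hk
    refine ⟨?_, fun v => ⟨?_, ?_, ?_⟩⟩
    · refine (Tm_bet hw hv₀ _).trans ?_
      have : ‖(Pi.single (mm k) 1 : Fin 3 → ℝ)‖ ≤ 1 :=
        (pi_norm_le_iff_of_nonneg zero_le_one).2 fun a => by
          by_cases h : a = mm k
          · subst h; simp
          · simp [Pi.single_apply, h]
      have h0 : 0 ≤ 6 * cn ι ^ 2 * C ^ 2 := by positivity
      calc 6 * cn ι ^ 2 * C ^ 2 * ‖(Pi.single (mm k) 1 : Fin 3 → ℝ)‖ ≤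
            6 * cn ι ^ 2 * C ^ 2 * 1 := mul_le_mul_of_nonneg_left this h0
        _ ≤ Cs (cn ι) C := by linarith
    · refine (Tm_rem hw hv₀ (hAη k hk) (hηn k hk).le (by positivity) s1.1 s1.2.2 v).trans ?_
      exact mul_le_mul_of_nonneg_right (mul_le_mul_of_nonneg_right b3 hr.le) (norm_nonneg _)
    · refine (Tm_low hw hv₀ (hAη k hk) (hηn k hk).le s1.2.2 v).trans ?_
      exact mul_le_mul_of_nonneg_right b4 (norm_nonneg _)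
    · refine (Tm_low' hw hv₀ v).trans ?_
      exact mul_le_mul_of_nonneg_right b5 (norm_nonneg _)
  · intro k hk
    refine ⟨hG1, fun a b => (hG2 a b).trans ?_, hG3⟩
    exact mul_le_mul_of_nonneg_right b1 (norm_nonneg _)
  · intro k hk
    have h1 : Continuous (Tm (A k) (N k) v₀) := LinearMap.continuous_of_finiteDimensional _
    exact (meas_G hG2).comp (h1.measurable.comp (meas_sec _))

/-- one operator in one slice: the contributing elements -/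
theorem slice_op {ι K : Type} [Fintype ι] [NormedAddCommGroup K] [InnerProductSpace ℂ K]
    [CompleteSpace K] [MeasurableSpace (Gr ℝ ι 1)] [BorelSpace (Gr ℝ ι 1)]
    [MeasurableSpace (Gr ℝ ι 2)] [BorelSpace (Gr ℝ ι 2)] [MeasurableSpace (Gr ℝ ι 3)]
    [BorelSpace (Gr ℝ ι 3)] {C : ℝ} (hC : 1 ≤ C) {Pb : Set (Gr ℝ ι 2) → (K →L[ℂ] K)}
    {Lm : Set (Gr ℝ ι 1) → (K →L[ℂ] K)} {Q : Set (Gr ℝ ι 3) → (K →L[ℂ] K)}
    (hb : Pv Pb) (hm : Pv Lm) (hbQ : CI (fun x z => x.1 ≤ z.1) Pb Q)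
    (hmQ : CI (fun y z => y.1 ≤ z.1) Lm Q) {I : Fin 3 → ι} {v₀ : Fin 3 → ι → ℝ} {ε : ℝ}
    {Cc : Set (Gr ℝ ι 3)} (hv₀ : v₀ ∈ ch (k := ℝ) I) (hε0 : 0 ≤ ε) (hε2 : ε ≤ 1 / 2)
    (hCm : MeasurableSet Cc) (hCs : Cc ⊆ GC 3 I v₀ ε) {A B : Matrix ι ι ℝ} {N : ℝ} {η : ι → ℝ}
    {G : (ι × ι → ℝ) → ℂ} {W W' : K →L[ℂ] K} {mk : Fin 3} {r δ : ℝ} (hr : 0 < r)
    (hδ0 : 0 ≤ δ) (hεδ : C * (24 * cn ι ^ 4 * C ^ 4) * ε / r ≤ δ) (hw : Hw A B N r C)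
    (hmk : 1 / 6 ≤ |η (I mk)|)
    (hG1 : ∀ a, ‖G a‖ ≤ 1) (hG2 : ∀ a b, ‖G a - G b‖ * ‖a‖ ≤ C * ‖a - b‖)
    (hG3 : ∀ (c : ℝ) a, c ≠ 0 → G (c • a) = G a)
    (hW : Fn Pb (fun x => G (PlF.sq A *ᵥ pl x)) W)
    (hW' : Fn Pb (fun x => G (Tm A N v₀ (sec (J2 I) x))) W')
    (hWQ : W' * Q Cc = Q Cc * W') (ξ : K) :
    ‖Lm {y | ∀ w ∈ y.1, ‖wd w η‖ ≤ C * r * ‖w‖} (W (Q Cc ξ))‖ ≤
      ‖Lm {y | ∀ a a', |sec (J1 I) y a * (η (I a') / η (I mk)) -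
        sec (J1 I) y a' * (η (I a) / η (I mk))| ≤ Cs (cn ι) C * r * ‖sec (J1 I) y‖}
        (W' (Q Cc ξ))‖ + δ * ‖Q Cc ξ‖ := by
  have hn0 : 0 ≤ cn ι := cn_nonneg (ι := ι)
  have hC0 : 0 < C := by linarith
  obtain ⟨b1, b2, b3, b4, b5, b6⟩ := Cs_ge hn0 hC0
  have hBm : MeasurableSet {y : Gr ℝ ι 1 | ∀ w ∈ y.1, ‖wd w η‖ ≤ C * r * ‖w‖} :=
    (ball_closed η (C * r)).measurableSet
  have hGm : MeasurableSet (GC (k := ℝ) (ι := ι) 2 I v₀ ε) := (GC_closed _ _ _ _).measurableSet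
  have hGm1 : MeasurableSet (GC (k := ℝ) (ι := ι) 1 I v₀ ε) := (GC_closed _ _ _ _).measurableSet
  have hNC2 : ∀ x : Gr ℝ ι 2, x ∉ GC 2 I v₀ ε → ∀ z ∈ Cc, ¬ x.1 ≤ z.1 :=
    fun x hx z hz hxz => hx (GC_sub hxz (hCs hz))
  have hNC1 : ∀ y : Gr ℝ ι 1, y ∉ GC 1 I v₀ ε → ∀ z ∈ Cc, ¬ y.1 ≤ z.1 :=
    fun y hy z hz hyz => hy (GC_sub hyz (hCs hz))
  have hW2 : W' (Q Cc ξ) = Q Cc (W' ξ) := congrArg (fun T : K →L[ℂ] K => T ξ) hWQ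
  have e1 : W (Q Cc ξ) = W' (Q Cc ξ) + (W - W') (Q Cc ξ) := by
    rw [ContinuousLinearMap.sub_apply]; abel
  have e2 : ‖(W - W') (Q Cc ξ)‖ ≤ δ * ‖Q Cc ξ‖ := by
    have h1 := fn_close hb (meas_pl hG2 hG3 A) (M := 1) (fun x => hG1 _) hW hW' hGm hδ0
      (fun x hx => (lemD hv₀ hw hε0 (by linarith) hC0.le hG2 hG3 hx).trans hεδ)
    have h2 := ins_pt hb hbQ hCm hGm hNC2 ξ
    calc ‖(W - W') (Q Cc ξ)‖ = ‖((W - W') * Pb (GC 2 I v₀ ε)) (Q Cc ξ)‖ := by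
          change _ = ‖(W - W') (Pb (GC 2 I v₀ ε) (Q Cc ξ))‖
          rw [← h2]
      _ ≤ ‖(W - W') * Pb (GC 2 I v₀ ε)‖ * ‖Q Cc ξ‖ := ContinuousLinearMap.le_opNorm _ _
      _ ≤ δ * ‖Q Cc ξ‖ := mul_le_mul_of_nonneg_right h1 (norm_nonneg _)
  have hins : ∀ ζ, Lm {y | ∀ w ∈ y.1, ‖wd w η‖ ≤ C * r * ‖w‖} (Q Cc ζ) =
      Lm ({y | ∀ w ∈ y.1, ‖wd w η‖ ≤ C * r * ‖w‖} ∩ GC 1 I v₀ ε) (Q Cc ζ) := by
    intro ζ
    rw [hm.inter _ _ hBm hGm1]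
    change _ = Lm {y | ∀ w ∈ y.1, ‖wd w η‖ ≤ C * r * ‖w‖} (Lm (GC 1 I v₀ ε) (Q Cc ζ))
    rw [← ins_pt hm hmQ hCm hGm1 hNC1 ζ]
  rw [e1, map_add]
  refine (norm_add_le _ _).trans (add_le_add ?_ ((hm.norm_le hBm _).trans e2))
  rw [hW2, hins]
  refine hm.norm_le_of_subset (hBm.inter hGm1) (meas_disc (meas_sec _) _ _) ?_ _
  rintro y ⟨hy1, hy2⟩ a a'
  refine (lemB hv₀ hr hC0.le hε2 hmk hy2 hy1 a a').trans ?_
  exact mul_le_mul_of_nonneg_right (mul_le_mul_of_nonneg_right b6 hr.le) (norm_nonneg _)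

/-- one operator in one slice: the other elements -/
theorem slice_zero {ι K : Type} [Fintype ι] [NormedAddCommGroup K] [InnerProductSpace ℂ K]
    [CompleteSpace K] [MeasurableSpace (Gr ℝ ι 1)] [BorelSpace (Gr ℝ ι 1)]
    [MeasurableSpace (Gr ℝ ι 3)] [BorelSpace (Gr ℝ ι 3)]
    {Lm : Set (Gr ℝ ι 1) → (K →L[ℂ] K)} {Q : Set (Gr ℝ ι 3) → (K →L[ℂ] K)}
    (hm : Pv Lm) (hmQ : CI (fun y z => y.1 ≤ z.1) Lm Q) {I : Fin 3 → ι} {v₀ : Fin 3 → ι → ℝ}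
    {ε c : ℝ} {Cc : Set (Gr ℝ ι 3)} (hCm : MeasurableSet Cc) (hCs : Cc ⊆ GC 3 I v₀ ε) {η : ι → ℝ}
    {W : K →L[ℂ] K} (hWQ : W * Q Cc = Q Cc * W)
    (h : ¬ ∃ y ∈ GC (k := ℝ) (ι := ι) 1 I v₀ ε, ∀ w ∈ y.1, ‖wd w η‖ ≤ c * ‖w‖) (ξ : K) :
    Lm {y | ∀ w ∈ y.1, ‖wd w η‖ ≤ c * ‖w‖} (W (Q Cc ξ)) = 0 := by
  have hBm : MeasurableSet {y : Gr ℝ ι 1 | ∀ w ∈ y.1, ‖wd w η‖ ≤ c * ‖w‖} :=
    (ball_closed η c).measurableSet
  have hGm1 : MeasurableSet (GC (k := ℝ) (ι := ι) 1 I v₀ ε) := (GC_closed _ _ _ _).measurableSet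
  have hNC1 : ∀ y : Gr ℝ ι 1, y ∉ GC 1 I v₀ ε → ∀ z ∈ Cc, ¬ y.1 ≤ z.1 :=
    fun y hy z hz hyz => hy (GC_sub hyz (hCs hz))
  have hW2 : W (Q Cc ξ) = Q Cc (W ξ) := congrArg (fun T : K →L[ℂ] K => T ξ) hWQ
  have hins : Lm {y | ∀ w ∈ y.1, ‖wd w η‖ ≤ c * ‖w‖} (Q Cc (W ξ)) =
      Lm ({y | ∀ w ∈ y.1, ‖wd w η‖ ≤ c * ‖w‖} ∩ GC 1 I v₀ ε) (Q Cc (W ξ)) := by
    rw [hm.inter _ _ hBm hGm1]
    change _ = Lm {y | ∀ w ∈ y.1, ‖wd w η‖ ≤ c * ‖w‖} (Lm (GC 1 I v₀ ε) (Q Cc (W ξ)))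
    rw [← ins_pt hm hmQ hCm hGm1 hNC1 (W ξ)]
  have h0 : ({y | ∀ w ∈ y.1, ‖wd w η‖ ≤ c * ‖w‖} ∩ GC 1 I v₀ ε : Set (Gr ℝ ι 1)) = ∅ :=
    Set.eq_empty_of_forall_notMem fun y hy => h ⟨y, hy.2, hy.1⟩
  rw [hW2, hins, h0, hm.empty]
  rfl

/-- **the line estimate in dimension `n`** -/
theorem kak_n {ι K : Type} [Fintype ι] [NormedAddCommGroup K] [InnerProductSpace ℂ K]
    [CompleteSpace K] [MeasurableSpace (Gr ℝ ι 1)] [BorelSpace (Gr ℝ ι 1)]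
    [MeasurableSpace (Gr ℝ ι 2)] [BorelSpace (Gr ℝ ι 2)] [MeasurableSpace (Gr ℝ ι 3)]
    [BorelSpace (Gr ℝ ι 3)] (hKL : KL (Gr ℝ ι 2) (Gr ℝ ι 1) K (ι × ι → ℝ)) {C : ℝ} (hC : 1 ≤ C) :
    ∃ D₁ D₂ : ℝ, 0 ≤ D₁ ∧ 0 ≤ D₂ ∧ ∀ (Pb Pc : Set (Gr ℝ ι 2) → (K →L[ℂ] K))
      (Ll Lm : Set (Gr ℝ ι 1) → (K →L[ℂ] K)) (Q : Set (Gr ℝ ι 3) → (K →L[ℂ] K)),
      Pv Pb → Pv Pc → Pv Ll → Pv Lm → Pv Q →
      CI (fun x y => y.1 ≤ x.1) Pb Ll → CI (fun x y => y.1 ≤ x.1) Pc Ll →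
      CI (fun x y => y.1 ≤ x.1) Pc Lm →
      CI (fun x z => x.1 ≤ z.1) Pb Q → CI (fun x z => x.1 ≤ z.1) Pc Q →
      CI (fun y z => y.1 ≤ z.1) Ll Q → CI (fun y z => y.1 ≤ z.1) Lm Q →
      ∀ (κ : Type) (S : Finset κ) (A B : κ → Matrix ι ι ℝ) (N : κ → ℝ) (η : κ → ι → ℝ) (j₀ : ι)
        (G : (ι × ι → ℝ) → ℂ) (W : κ → (K →L[ℂ] K)) (r : ℝ) (M : ℕ),
      0 < r → r ≤ 1 → (∀ k ∈ S, Hw (A k) (B k) (N k) r C) →
      (∀ k ∈ S, ‖A k *ᵥ η k‖ ≤ C * (r * N k) * ‖η k‖) → (∀ k ∈ S, ‖η k‖ = 1) →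
      (∀ k ∈ S, η k j₀ = 1) →
      (∀ x : ι → ℝ, (S.filter fun k => ‖η k - x‖ ≤ D₁ * r).card ≤ M) →
      (∀ a, ‖G a‖ ≤ 1) → (∀ a b, ‖G a - G b‖ * ‖a‖ ≤ C * ‖a - b‖) →
      (∀ (c : ℝ) a, c ≠ 0 → G (c • a) = G a) →
      (∀ k ∈ S, Fn Pb (fun x => G (PlF.sq (A k) *ᵥ pl x)) (W k)) →
      ∀ ξ : K, ∑ k ∈ S, ‖Lm {y | ∀ w ∈ y.1, ‖wd w (η k)‖ ≤ C * r * ‖w‖} (W k ξ)‖ ^ 2 ≤
        D₂ * M * (1 + Real.log (1 / r)) ^ 6 * ‖ξ‖ ^ 2 := by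
  classical
  have hn0 : 0 ≤ cn ι := cn_nonneg (ι := ι)
  have hC0 : 0 < C := by linarith
  set C₁ : ℝ := 4 * C + 1 with hC₁
  have hC₁0 : 0 < C₁ := by positivity
  obtain ⟨D, hD, key⟩ := one_slice hKL hC
  refine ⟨18 * C₁ + 42, 2 * D + 2, by positivity, by positivity, ?_⟩
  intro Pb Pc Ll Lm Q hb hc hl hm hQ hbl hcl hcm hbQ hcQ hlQ hmQ κ S A B N η j₀ G W r M hr hr1 hHw
    hAη hηn hηj hcnt hG1 hG2 hG3 hW ξ
  have hL1 : 1 ≤ (1 + Real.log (1 / r)) ^ 6 := by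
    refine one_le_pow₀ ?_
    have : 0 ≤ Real.log (1 / r) := Real.log_nonneg (by rw [le_div_iff₀ hr]; linarith)
    linarith
  set L : ℝ := (1 + Real.log (1 / r)) ^ 6 with hL
  have hWn : ∀ k ∈ S, ‖W k‖ ≤ 1 := fun k hk =>
    Fn.norm_le hb (hW k hk) zero_le_one fun x => hG1 _
  have hBm : ∀ k, MeasurableSet {y : Gr ℝ ι 1 | ∀ w ∈ y.1, ‖wd w (η k)‖ ≤ C * r * ‖w‖} := fun k =>
    (ball_closed (η k) (C * r)).measurableSet
  rcases S.eq_empty_or_nonempty with hS | ⟨k₀, hk₀⟩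
  · subst hS
    simp only [Finset.sum_empty]
    positivity
  have hM1 : (1 : ℝ) ≤ M := by
    have h1 := hcnt (η k₀)
    have h2 : 0 < (S.filter fun k => ‖η k - η k₀‖ ≤ (18 * C₁ + 42) * r).card := by
      rw [Finset.card_pos]
      exact ⟨k₀, by simp only [Finset.mem_filter, sub_self, norm_zero]; exact ⟨hk₀, by positivity⟩⟩
    have h3 : 1 ≤ M := by omega
    exact_mod_cast h3
  by_cases hsm : C₁ * r ≤ 1 / 2
  swap
  · -- `r` is not small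
    rw [not_le] at hsm
    have hcard : (S.card : ℝ) ≤ M := by
      have h1 := hcnt (η k₀)
      have h2 : (S.filter fun k => ‖η k - η k₀‖ ≤ (18 * C₁ + 42) * r) = S := by
        refine Finset.filter_true_of_mem fun k hk => ?_
        have h3 := norm_sub_le (η k) (η k₀)
        rw [hηn k hk, hηn k₀ hk₀] at h3
        nlinarith
      rw [h2] at h1
      exact_mod_cast h1
    calc ∑ k ∈ S, ‖Lm {y | ∀ w ∈ y.1, ‖wd w (η k)‖ ≤ C * r * ‖w‖} (W k ξ)‖ ^ 2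
        ≤ ∑ _k ∈ S, ‖ξ‖ ^ 2 := by
          refine Finset.sum_le_sum fun k hk => ?_
          refine pow_le_pow_left₀ (norm_nonneg _) ?_ 2
          refine (hm.norm_le (hBm k) _).trans ?_
          calc ‖W k ξ‖ ≤ ‖W k‖ * ‖ξ‖ := (W k).le_opNorm ξ
            _ ≤ 1 * ‖ξ‖ := mul_le_mul_of_nonneg_right (hWn k hk) (norm_nonneg _)
            _ = ‖ξ‖ := one_mul _
      _ = S.card * ‖ξ‖ ^ 2 := by rw [Finset.sum_const, nsmul_eq_mul]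
      _ ≤ M * ‖ξ‖ ^ 2 := mul_le_mul_of_nonneg_right hcard (by positivity)
      _ ≤ (2 * D + 2) * M * L * ‖ξ‖ ^ 2 := by
          refine mul_le_mul_of_nonneg_right ?_ (by positivity)
          have h1 : (M : ℝ) * 1 ≤ M * L := mul_le_mul_of_nonneg_left hL1 (by positivity)
          have h2 : 0 ≤ (M : ℝ) * L := by positivity
          nlinarith
  · -- the slices
    set δ : ℝ := 1 / (S.card + 1) with hδ
    have hδ0 : 0 < δ := by positivity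
    set Kc : ℝ := C * (24 * cn ι ^ 4 * C ^ 4) with hKc
    have hKc0 : 0 ≤ Kc := by positivity
    set ε : ℝ := min (min (1 / 2) r) (δ * r / (Kc + 1)) with hε
    have hε0 : 0 < ε := lt_min (lt_min (by norm_num) hr) (by positivity)
    have hε2 : ε ≤ 1 / 2 := (min_le_left _ _).trans (min_le_left _ _)
    have hεr : ε ≤ r := (min_le_left _ _).trans (min_le_right _ _)
    have hεδ : Kc * ε / r ≤ δ := by
      have h1 : ε ≤ δ * r / (Kc + 1) := min_le_right _ _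
      rw [le_div_iff₀ (by positivity)] at h1
      rw [div_le_iff₀ hr]
      nlinarith
    obtain ⟨m, I, v₀, Cc, hv₀, hCm, hCd, hCu, hCs⟩ := exists_cells (k := ℝ) (ι := ι) hε0
    have hdec : Dec (Finset.univ : Finset (Fin m)) fun i => Q (Cc i) :=
      dec_of hQ Finset.univ Cc (fun i _ => hCm i) (fun i _ j _ hij => hCd i j hij)
        (fun z => by obtain ⟨i, hi⟩ := hCu z; exact ⟨i, Finset.mem_univ i, hi⟩)
    -- the data of a slice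
    have hmm : ∀ i k, ∃ mk : Fin 3, k ∈ S → (∃ y ∈ GC (k := ℝ) (ι := ι) 1 (I i) (v₀ i) ε,
        ∀ w ∈ y.1, ‖wd w (η k)‖ ≤ C * r * ‖w‖) → ‖η k - prj (I i) (v₀ i) (η k)‖ ≤ C₁ * r ∧
        (∀ a, |η k (I i a)| ≤ |η k (I i mk)|) ∧ 1 / 6 ≤ |η k (I i mk)| := by
      intro i k
      by_cases hk : k ∈ S ∧ ∃ y ∈ GC (k := ℝ) (ι := ι) 1 (I i) (v₀ i) ε,
          ∀ w ∈ y.1, ‖wd w (η k)‖ ≤ C * r * ‖w‖
      · obtain ⟨hkS, y, hy, hyη⟩ := hk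
        obtain ⟨v, rfl⟩ := sp_surj y
        have hw : v.1 0 ∈ (sp v).1 := mem_sp1.2 ⟨1, (one_smul _ _).symm⟩
        obtain ⟨h1, mk, h2, h3⟩ := lemA (hv₀ i) hr hC0.le hεr hsm (hηn k hkS)
          (v.2.ne_zero 0) (hy _ hw) (hyη _ hw)
        exact ⟨mk, fun _ _ => ⟨h1, h2, h3⟩⟩
      · exact ⟨0, fun h1 h2 => absurd ⟨h1, h2⟩ hk⟩
    choose mm hmm using hmm
    have hmT : ∀ i k, Measurable fun x : Gr ℝ ι 2 =>
        G (Tm (A k) (N k) (v₀ i) (sec (J2 (I i)) x)) := by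
      intro i k
      have h1 : Continuous (Tm (A k) (N k) (v₀ i)) := LinearMap.continuous_of_finiteDimensional _
      exact (meas_G hG2).comp (h1.measurable.comp (meas_sec _))
    have hex : ∀ i k, ∃ W', Fn Pb (fun x => G (Tm (A k) (N k) (v₀ i) (sec (J2 (I i)) x))) W' :=
      fun i k => exists_fn hb (hmT i k) (M := 1) fun x => hG1 _
    choose W' hW' using hex
    have hQb : ∀ i, ∀ A', MeasurableSet A' → Q (Cc i) * Pb A' = Pb A' * Q (Cc i) := fun i A' hA' =>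
      (hbQ.comm A' _ hA' (hCm i)).symm
    have hW'Q : ∀ i k, W' i k * Q (Cc i) = Q (Cc i) * W' i k := fun i k =>
      (fn_comm hb (hmT i k) (fun x => hG1 _) (hW' i k) (hQb i)).symm
    have hWQ : ∀ i, ∀ k ∈ S, W k * Q (Cc i) = Q (Cc i) * W k := fun i k hk =>
      (fn_comm hb (meas_pl hG2 hG3 (A k)) (fun x => hG1 _) (hW k hk) (hQb i)).symm
    set Si : Fin m → Finset κ := fun i => S.filter fun k =>
      ∃ y ∈ GC (k := ℝ) (ι := ι) 1 (I i) (v₀ i) ε, ∀ w ∈ y.1, ‖wd w (η k)‖ ≤ C * r * ‖w‖ with hSi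
    set V : Fin m → κ → K → ℝ := fun i k v => if k ∈ Si i then
      ‖Lm {y | ∀ a a', |sec (J1 (I i)) y a * (η k (I i a') / η k (I i (mm i k))) -
        sec (J1 (I i)) y a' * (η k (I i a) / η k (I i (mm i k)))| ≤
          Cs (cn ι) C * r * ‖sec (J1 (I i)) y‖} (W' i k v)‖ else 0 with hV
    have hmain : ∀ i ∈ (Finset.univ : Finset (Fin m)), ∀ ξ : K,
        ∑ k ∈ S, (V i k (Q (Cc i) ξ)) ^ 2 ≤ D * M * L * ‖Q (Cc i) ξ‖ ^ 2 := by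
      intro i _ ξ
      have h1 := key Pb Pc Ll Lm Q hb hc hl hm hQ hbl hcl hcm hbQ hcQ hlQ hmQ (I i) (v₀ i) ε (Cc i)
        (hv₀ i) hε2 (hCm i) (hCs i) κ (Si i) A B N η j₀ G (W' i) (mm i) r M hr hr1 hsm
        (fun k hk => hHw k (Finset.mem_filter.1 hk).1) (fun k hk => hAη k (Finset.mem_filter.1 hk).1)
        (fun k hk => hηn k (Finset.mem_filter.1 hk).1) (fun k hk => hηj k (Finset.mem_filter.1 hk).1)
        (fun k hk => hmm i k (Finset.mem_filter.1 hk).1 (Finset.mem_filter.1 hk).2)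
        (fun x => (Finset.card_le_card (Finset.filter_subset_filter _
          (Finset.filter_subset _ _))).trans (hcnt x)) hG1 hG2 hG3
        (fun k _ => hW' i k) (fun k _ => hW'Q i k) ξ
      refine le_trans (le_of_eq ?_) h1
      rw [← Finset.sum_subset (Finset.filter_subset _ _ : Si i ⊆ S)]
      · refine Finset.sum_congr rfl fun k hk => ?_
        simp only [hV]
        rw [if_pos hk]
      · intro k _ hk
        simp only [hV]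
        rw [if_neg hk]
        norm_num
    have hcomm : ∀ k ∈ S, ∀ i ∈ (Finset.univ : Finset (Fin m)),
        Q (Cc i) * (Lm {y | ∀ w ∈ y.1, ‖wd w (η k)‖ ≤ C * r * ‖w‖} * W k) =
        Lm {y | ∀ w ∈ y.1, ‖wd w (η k)‖ ≤ C * r * ‖w‖} * W k * Q (Cc i) := by
      intro k hk i _
      have h1 := hmQ.comm _ _ (hBm k) (hCm i)
      rw [← mul_assoc, ← h1, mul_assoc, ← hWQ i k hk, mul_assoc]
    have happ : ∀ i ∈ (Finset.univ : Finset (Fin m)), ∀ k ∈ S, ∀ ξ,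
        ‖(Lm {y | ∀ w ∈ y.1, ‖wd w (η k)‖ ≤ C * r * ‖w‖} * W k) (Q (Cc i) ξ)‖ ≤
          V i k (Q (Cc i) ξ) + δ * ‖Q (Cc i) ξ‖ := by
      intro i _ k hk ξ
      change ‖Lm {y | ∀ w ∈ y.1, ‖wd w (η k)‖ ≤ C * r * ‖w‖} (W k (Q (Cc i) ξ))‖ ≤ _
      by_cases hkS : k ∈ Si i
      · have s1 := hmm i k hk (Finset.mem_filter.1 hkS).2
        have h1 := slice_op hC hb hm hbQ hmQ (hv₀ i) hε0.le hε2 (hCm i) (hCs i) hr hδ0.le hεδ
          (hHw k hk) s1.2.2 hG1 hG2 hG3 (hW k hk) (hW' i k) (hW'Q i k) ξ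
        simp only [hV]
        rw [if_pos hkS]
        exact h1
      · have h1 := slice_zero hm hmQ (hCm i) (hCs i) (hWQ i k hk)
          (fun h => hkS (Finset.mem_filter.2 ⟨hk, h⟩)) ξ
        simp only [hV]
        rw [if_neg hkS, h1, norm_zero, zero_add]
        positivity
    have hfin := slice_approx hdec S _ hcomm V hmain happ ξ
    refine hfin.trans (mul_le_mul_of_nonneg_right ?_ (by positivity))
    have h2 : (S.card : ℝ) * δ ^ 2 ≤ 1 := by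
      rw [hδ, div_pow, one_pow, mul_one_div, div_le_one (by positivity)]
      nlinarith [Nat.cast_nonneg (α := ℝ) S.card]
    have h3 : (1 : ℝ) ≤ M * L := by
      calc (1 : ℝ) = 1 * 1 := (one_mul 1).symm
        _ ≤ M * L := mul_le_mul hM1 hL1 zero_le_one (by positivity)
    nlinarith

end Vale.Agent.P092.H99.Lin
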