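import Vale.Agent.P092.H99.RelLin
import Vale.Agent.P092.H874.KL
import Vale.Agent.P092.H604.Kp

/-!
P092, TEAM N (helper99): `KL` holds (helper874's `kak_lin`); the operators of a calculus.
-/

set_option linter.all false

namespace Vale.Agent.P092.H99

open MeasureTheory Finset Vale.Agent.P092.H464
open Vale.Agent.P092.H874 (Fn kak_lin LinDat Bl pvC)

theorem kl (X Y K E : Type) [MeasurableSpace X] [MeasurableSpace Y] [NormedAddCommGroup K]
    [InnerProductSpace ℂ K] [CompleteSpace K] [NormedAddCommGroup E] [NormedSpace ℝ E] :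
    KL X Y K E := by
  intro C hC
  refine ⟨|3 * pvC C|, abs_nonneg _, ?_⟩
  intro s t hs ht hs0 ht0 Pb Pc Ll Lm hb hc hl hm hbl hcl hcm κ S T G η β W r N hr hr1 hη hcnt hβ
    hG hGm hW ξ
  refine (kak_lin hs ht hs0 ht0 hb hc hl hm hbl hcl hcm S T G η β W hC hr hr1
    (fun k hk => (hη k hk).1) (fun k hk => ⟨(hη k hk).2, fun v => ((hβ k hk).2 v).1, (hβ k hk).1,
      fun v => ((hβ k hk).2 v).2.1, fun v => ((hβ k hk).2 v).2.2, (hG k hk).1, (hG k hk).2.1,
      (hG k hk).2.2⟩) hcnt hGm hW ξ).trans ?_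
  have h0 : 0 ≤ Real.log (1 / r) := Real.log_nonneg (by rw [le_div_iff₀ hr]; linarith)
  gcongr
  exact le_abs_self _

section

variable {K X : Type*} [NormedAddCommGroup K] [InnerProductSpace ℂ K] [CompleteSpace K]
  [TopologicalSpace X] [CompactSpace X] [TopologicalSpace.MetrizableSpace X] [MeasurableSpace X]
  [BorelSpace X]

/-- a continuous function is an operator of the calculus -/
theorem fn_of (φ : C(X, ℂ) →⋆ₐ[ℂ] (K →L[ℂ] K)) (F : C(X, ℂ)) :
    Fn (H466.pv φ) (fun x => F x) (φ F) := by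
  refine ⟨fun A _ => H466.phi_pv_comm φ F A, fun A hA c ε hε h => ?_⟩
  have e : φ F - c • 1 = φ (F - c • 1) := by
    rw [map_sub, map_smul, map_one]
  rw [e]
  refine ContinuousLinearMap.opNorm_le_bound _ hε fun ξ => ?_
  refine (H466.norm_phi_pv_le φ hε (fun x hx => ?_) ξ).trans
    (mul_le_mul_of_nonneg_left (H466.norm_pv_le φ A ξ) hε)
  have := h x hx
  simpa using this

end

end Vale.Agent.P092.H99
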