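import Vale.Agent.P092.H99.Lin

/-!
P092, TEAM N, block [N-K] (helper99): geometry of a slice, four lemmas.

`A` contracted direction close to the three space; `B` discs; `C` counting; `D` the function.
-/

set_option linter.all false

open Module Set
open scoped Matrix

namespace Vale.Agent.P092.H99.Lin

open Vale.Agent.P092.H100.Gr Vale.Agent.P092.H99.Sec Vale.Agent.P092.H835.PlF
open Vale.Agent.P092.H87.N Vale.Agent.P092.H820 Vale.Agent.P092.H835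

variable {ι : Type*} [Fintype ι] {I : Fin 3 → ι} {v₀ : Fin 3 → ι → ℝ}

theorem prj_le (hv : v₀ ∈ ch (k := ℝ) I) (w : ι → ℝ) : ‖prj I v₀ w‖ ≤ 3 * ‖w‖ := by
  unfold prj
  refine (norm_sum_le _ _).trans ?_
  calc ∑ a : Fin 3, ‖w (I a) • v₀ a‖ ≤ ∑ _a : Fin 3, ‖w‖ := by
        refine Finset.sum_le_sum fun a _ => ?_
        rw [norm_smul]
        calc ‖w (I a)‖ * ‖v₀ a‖ ≤ ‖w‖ * 1 :=
              mul_le_mul (norm_le_pi_norm w _) (frame_le hv a) (norm_nonneg _) (norm_nonneg _)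
          _ = ‖w‖ := mul_one _
    _ = 3 * ‖w‖ := by simp

theorem prj_le' (hv : v₀ ∈ ch (k := ℝ) I) (w : ι → ℝ) {M : ℝ} (hM : ∀ a, |w (I a)| ≤ M) :
    ‖prj I v₀ w‖ ≤ 3 * M := by
  unfold prj
  refine (norm_sum_le _ _).trans ?_
  calc ∑ a : Fin 3, ‖w (I a) • v₀ a‖ ≤ ∑ _a : Fin 3, M := by
        refine Finset.sum_le_sum fun a _ => ?_
        rw [norm_smul]
        calc ‖w (I a)‖ * ‖v₀ a‖ ≤ M * 1 :=
              mul_le_mul (hM a) (frame_le hv a) (norm_nonneg _) ((abs_nonneg _).trans (hM a))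
          _ = M := mul_one _
    _ = 3 * M := by simp

theorem prj_sub (w w' : ι → ℝ) : prj I v₀ (w - w') = prj I v₀ w - prj I v₀ w' := by
  simp only [prj, Pi.sub_apply, sub_smul, Finset.sum_sub_distrib]

/-- a coordinate of largest absolute value -/
theorem exists_coord {w : ι → ℝ} (hw : w ≠ 0) : ∃ i, |w i| = ‖w‖ := by
  haveI : Nonempty ι := by
    by_contra h
    rw [not_nonempty_iff] at h
    exact hw (funext fun i => (h.elim i))
  obtain ⟨i, hi⟩ := Finite.exists_max fun i => |w i|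
  refine ⟨i, le_antisymm (norm_le_pi_norm w i) ?_⟩
  exact (pi_norm_le_iff_of_nonneg (abs_nonneg _)).2 hi

/-- **A.** the contracted direction is close to the three space -/
theorem lemA (hv : v₀ ∈ ch (k := ℝ) I) {ε r C₂ : ℝ} (hr : 0 < r) (hC₂ : 0 ≤ C₂) (hεr : ε ≤ r)
    (hsm : (4 * C₂ + 1) * r ≤ 1 / 2) {η w : ι → ℝ} (hη : ‖η‖ = 1) (hw0 : w ≠ 0)
    (hwε : ‖w - prj I v₀ w‖ ≤ ε * ‖w‖) (hwη : ‖wd w η‖ ≤ C₂ * r * ‖w‖) :
    ‖η - prj I v₀ η‖ ≤ (4 * C₂ + 1) * r ∧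
      ∃ m : Fin 3, (∀ a, |η (I a)| ≤ |η (I m)|) ∧ 1 / 6 ≤ |η (I m)| := by
  obtain ⟨i1, hi1⟩ := exists_coord hw0
  have hwn : 0 < ‖w‖ := norm_pos_iff.2 hw0
  have hwi : w i1 ≠ 0 := fun h => by rw [h, abs_zero] at hi1; linarith
  set lam : ℝ := η i1 / w i1 with hlam
  have hlam1 : |lam| * ‖w‖ ≤ 1 := by
    rw [hlam, abs_div, hi1, div_mul_cancel₀ _ hwn.ne']
    exact (norm_le_pi_norm η i1).trans hη.le
  have h1 : ‖η - lam • w‖ ≤ C₂ * r := by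
    refine (pi_norm_le_iff_of_nonneg (by positivity)).2 fun j => ?_
    have e : (η - lam • w) j = wd w η (i1, j) / w i1 := by
      simp only [Pi.sub_apply, Pi.smul_apply, smul_eq_mul, wd, hlam]
      field_simp
    rw [e, norm_div, Real.norm_eq_abs (w i1), hi1, div_le_iff₀ hwn]
    exact (norm_le_pi_norm _ _).trans hwη
  have e1 : η - prj I v₀ η = (η - lam • w) - prj I v₀ (η - lam • w) +
      lam • (w - prj I v₀ w) := by
    rw [prj_sub, prj_smul, smul_sub]; abel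
  have h2 : ‖η - prj I v₀ η‖ ≤ (4 * C₂ + 1) * r := by
    rw [e1]
    calc ‖(η - lam • w) - prj I v₀ (η - lam • w) + lam • (w - prj I v₀ w)‖ ≤
          ‖η - lam • w‖ + ‖prj I v₀ (η - lam • w)‖ + ‖lam • (w - prj I v₀ w)‖ :=
          (norm_add_le _ _).trans (add_le_add_left (norm_sub_le _ _) _)
      _ ≤ C₂ * r + 3 * (C₂ * r) + r := by
          refine add_le_add (add_le_add h1 ((prj_le hv _).trans (by linarith))) ?_
          rw [norm_smul, Real.norm_eq_abs]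
          calc |lam| * ‖w - prj I v₀ w‖ ≤ |lam| * (ε * ‖w‖) :=
                mul_le_mul_of_nonneg_left hwε (abs_nonneg _)
            _ = ε * (|lam| * ‖w‖) := by ring
            _ ≤ r * (|lam| * ‖w‖) := mul_le_mul_of_nonneg_right hεr (by positivity)
            _ ≤ r * 1 := mul_le_mul_of_nonneg_left hlam1 hr.le
            _ = r := mul_one _
      _ = (4 * C₂ + 1) * r := by ring
  refine ⟨h2, ?_⟩
  obtain ⟨m, hm⟩ := Finite.exists_max fun a : Fin 3 => |η (I a)|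
  refine ⟨m, hm, ?_⟩
  have h3 := prj_le' hv η hm
  have h4 : ‖η‖ ≤ ‖η - prj I v₀ η‖ + ‖prj I v₀ η‖ := by
    have := norm_add_le (η - prj I v₀ η) (prj I v₀ η)
    rwa [sub_add_cancel] at this
  rw [hη] at h4
  linarith

/-- **B.** discs -/
theorem lemB (hv : v₀ ∈ ch (k := ℝ) I) {ε r C₂ : ℝ} (hr : 0 < r) (hC₂ : 0 ≤ C₂) (hε : ε ≤ 1 / 2)
    {η : ι → ℝ} {m : Fin 3} (hm : 1 / 6 ≤ |η (I m)|) {y : Gr ℝ ι 1}
    (hy : y ∈ GC 1 I v₀ ε) (hyη : ∀ w ∈ y.1, ‖wd w η‖ ≤ C₂ * r * ‖w‖) (i i' : Fin 3) :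
    |sec (J1 I) y i * (η (I i') / η (I m)) - sec (J1 I) y i' * (η (I i) / η (I m))| ≤
      36 * C₂ * r * ‖sec (J1 I) y‖ := by
  obtain ⟨v, rfl⟩ := sp_surj y
  have hinj := GC_inj (by linarith : ε < 1) hy
  obtain ⟨c, hc, e1⟩ := sec_eq (J1 I) v (vc_J1_ne hinj)
  have hm0 : 0 < |η (I m)| := lt_of_lt_of_le (by norm_num) hm
  have hmne : η (I m) ≠ 0 := fun h => by rw [h, abs_zero] at hm0; exact lt_irrefl _ hm0
  set w : ι → ℝ := v.1 0 with hw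
  have hwy : w ∈ (sp v).1 := mem_sp1.2 ⟨1, (one_smul _ _).symm⟩
  have e2 : ∀ a, sec (J1 I) (sp v) a = c * w (I a) := fun a => by
    rw [e1]; simp only [Pi.smul_apply, smul_eq_mul, vc_J1, hw]
  have h1 := hyη w hwy
  have h2 := hy w hwy
  have hM : ∀ a, |w (I a)| ≤ |c|⁻¹ * ‖sec (J1 I) (sp v)‖ := by
    intro a
    have h3 := norm_le_pi_norm (sec (J1 I) (sp v)) a
    rw [e2, norm_mul, Real.norm_eq_abs, Real.norm_eq_abs] at h3
    rw [← div_eq_inv_mul, le_div_iff₀ (abs_pos.2 hc)]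
    linarith
  have h3 : ‖w‖ ≤ 6 * (|c|⁻¹ * ‖sec (J1 I) (sp v)‖) := by
    have h4 := prj_le' hv w hM
    have h5 : ‖w‖ ≤ ‖w - prj I v₀ w‖ + ‖prj I v₀ w‖ := by
      have := norm_add_le (w - prj I v₀ w) (prj I v₀ w)
      rwa [sub_add_cancel] at this
    nlinarith [norm_nonneg w]
  have e3 : sec (J1 I) (sp v) i * (η (I i') / η (I m)) - sec (J1 I) (sp v) i' * (η (I i) / η (I m))
      = c / η (I m) * wd w η (I i, I i') := by
    rw [e2, e2]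
    simp only [wd]
    ring
  have h4 : |wd w η (I i, I i')| ≤ C₂ * r * ‖w‖ := (norm_le_pi_norm (wd w η) _).trans h1
  rw [e3, abs_mul, abs_div]
  have h5 : |c| / |η (I m)| ≤ 6 * |c| := by
    rw [div_le_iff₀ hm0]
    nlinarith [abs_nonneg c]
  calc |c| / |η (I m)| * |wd w η (I i, I i')| ≤ 6 * |c| * (C₂ * r * ‖w‖) :=
        mul_le_mul h5 h4 (abs_nonneg _) (by positivity)
    _ ≤ 6 * |c| * (C₂ * r * (6 * (|c|⁻¹ * ‖sec (J1 I) (sp v)‖))) := by gcongr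
    _ = 36 * C₂ * r * ‖sec (J1 I) (sp v)‖ * (|c| * |c|⁻¹) := by ring
    _ = 36 * C₂ * r * ‖sec (J1 I) (sp v)‖ := by
        rw [mul_inv_cancel₀ (abs_ne_zero.2 hc), mul_one]

/-- **C.** counting -/
theorem lemC (hv : v₀ ∈ ch (k := ℝ) I) {r C₁ : ℝ} (hr : 0 < r) (hC₁ : 0 ≤ C₁)
    (hsm : C₁ * r ≤ 1 / 2) {η η' : ι → ℝ} {m m' : Fin 3} {j₀ : ι} (hη : ‖η‖ ≤ 1) (hη' : ‖η'‖ ≤ 1)
    (hj : η j₀ = 1) (hj' : η' j₀ = 1) (hp : ‖η - prj I v₀ η‖ ≤ C₁ * r)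
    (hp' : ‖η' - prj I v₀ η'‖ ≤ C₁ * r) (hm : ∀ a, |η (I a)| ≤ |η (I m)|)
    (hm' : ∀ a, |η' (I a)| ≤ |η' (I m')|) (hm0 : η (I m) ≠ 0) (hm0' : η' (I m') ≠ 0)
    {y0 : Fin 3 → ℝ} (hy : ∀ i, |η (I i) / η (I m) - y0 i| ≤ r)
    (hy' : ∀ i, |η' (I i) / η' (I m') - y0 i| ≤ r) : ‖η - η'‖ ≤ (14 * C₁ + 42) * r := by
  set a : Fin 3 → ℝ := fun i => η (I i) / η (I m) with ha
  set a' : Fin 3 → ℝ := fun i => η' (I i) / η' (I m') with ha'
  set x : ι → ℝ := Vf v₀ a with hx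
  set x' : ι → ℝ := Vf v₀ a' with hx'
  set c : ℝ := η (I m) with hc
  set c' : ℝ := η' (I m') with hc'
  have e1 : prj I v₀ η = c • x := by
    simp only [hx, Vf, prj, ha, Finset.smul_sum, smul_smul]
    refine Finset.sum_congr rfl fun i _ => ?_
    rw [mul_div_cancel₀ _ hm0]
  have e1' : prj I v₀ η' = c' • x' := by
    simp only [hx', Vf, prj, ha', Finset.smul_sum, smul_smul]
    refine Finset.sum_congr rfl fun i _ => ?_
    rw [mul_div_cancel₀ _ hm0']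
  have ha1 : ‖a‖ ≤ 1 := (pi_norm_le_iff_of_nonneg zero_le_one).2 fun i => by
    rw [ha, Real.norm_eq_abs, abs_div]
    exact div_le_one_of_le₀ (hm i) (abs_nonneg _)
  have hx3 : ‖x‖ ≤ 3 := (Vf_le hv a).trans (by linarith)
  have hxx : ‖x - x'‖ ≤ 6 * r := by
    have e : x - x' = Vf v₀ (a - a') := by
      simp only [hx, hx', Vf, Pi.sub_apply, sub_smul, Finset.sum_sub_distrib]
    rw [e]
    refine (Vf_le hv _).trans ?_
    have : ‖a - a'‖ ≤ 2 * r := (pi_norm_le_iff_of_nonneg (by positivity)).2 fun i => by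
      have h1 := hy i
      have h2 := hy' i
      have e2 : (a - a') i = (a i - y0 i) - (a' i - y0 i) := by
        simp only [Pi.sub_apply]; ring
      rw [e2]
      refine (norm_sub_le _ _).trans ?_
      rw [Real.norm_eq_abs, Real.norm_eq_abs]
      linarith
    linarith
  set e : ι → ℝ := η - c • x with he
  set e' : ι → ℝ := η' - c' • x' with he'
  have hen : ‖e‖ ≤ C₁ * r := by rw [he, ← e1]; exact hp
  have hen' : ‖e'‖ ≤ C₁ * r := by rw [he', ← e1']; exact hp'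
  have hcn : |c| ≤ 1 := (norm_le_pi_norm η (I m)).trans hη
  have hcn' : |c'| ≤ 1 := (norm_le_pi_norm η' (I m')).trans hη'
  have f1 : c * x j₀ + e j₀ = 1 := by
    rw [he]; simp only [Pi.sub_apply, Pi.smul_apply, smul_eq_mul, hj]; ring
  have f1' : c' * x' j₀ + e' j₀ = 1 := by
    rw [he']; simp only [Pi.sub_apply, Pi.smul_apply, smul_eq_mul, hj']; ring
  have g1 : |e j₀| ≤ C₁ * r := (norm_le_pi_norm e j₀).trans hen
  have g1' : |e' j₀| ≤ C₁ * r := (norm_le_pi_norm e' j₀).trans hen'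
  have g2 : |x j₀ - x' j₀| ≤ 6 * r := by
    have := norm_le_pi_norm (x - x') j₀
    rw [Pi.sub_apply] at this
    exact this.trans hxx
  have g3 : 1 / 2 ≤ |x j₀| := by
    have h1 : |c * x j₀| ≤ |x j₀| := by
      rw [abs_mul]; exact mul_le_of_le_one_left (abs_nonneg _) hcn
    have h2 : 1 - |e j₀| ≤ |c * x j₀| := by
      have h3 : c * x j₀ = 1 - e j₀ := by linarith
      rw [h3]
      have := abs_sub_abs_le_abs_sub (1 : ℝ) (e j₀)
      rw [abs_one] at this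
      exact this
    linarith
  have g4 : |c - c'| * |x j₀| ≤ (2 * C₁ + 6) * r := by
    rw [← abs_mul]
    have h1 : (c - c') * x j₀ = (e' j₀ - e j₀) - c' * (x j₀ - x' j₀) := by linarith
    rw [h1]
    calc |(e' j₀ - e j₀) - c' * (x j₀ - x' j₀)| ≤ |e' j₀ - e j₀| + |c' * (x j₀ - x' j₀)| :=
          abs_sub _ _
      _ ≤ (|e' j₀| + |e j₀|) + 1 * (6 * r) := by
          refine add_le_add (abs_sub _ _) ?_
          rw [abs_mul]
          exact mul_le_mul hcn' g2 (abs_nonneg _) zero_le_one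
      _ ≤ (2 * C₁ + 6) * r := by linarith
  have g5 : |c - c'| ≤ (4 * C₁ + 12) * r := by
    have := mul_le_mul_of_nonneg_left g3 (abs_nonneg (c - c'))
    linarith
  have e5 : η - η' = (c - c') • x + c' • (x - x') + (e - e') := by
    rw [he, he', sub_smul, smul_sub]; abel
  rw [e5]
  calc ‖(c - c') • x + c' • (x - x') + (e - e')‖ ≤
        ‖(c - c') • x‖ + ‖c' • (x - x')‖ + ‖e - e'‖ := norm_add₃_le
    _ ≤ (4 * C₁ + 12) * r * 3 + 1 * (6 * r) + (C₁ * r + C₁ * r) := by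
        refine add_le_add (add_le_add ?_ ?_) ((norm_sub_le _ _).trans (add_le_add hen hen'))
        · rw [norm_smul, Real.norm_eq_abs]
          exact mul_le_mul g5 hx3 (norm_nonneg _) (by positivity)
        · rw [norm_smul, Real.norm_eq_abs]
          exact mul_le_mul hcn' hxx (norm_nonneg _) zero_le_one
    _ = (14 * C₁ + 42) * r := by ring

/-- the Pluecker vector of the chosen frame -/
noncomputable def pl (x : Gr ℝ ι 2) : ι × ι → ℝ := wd ((fr x).1 0) ((fr x).1 1)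

/-- a line has a frame with norms at most one and Pluecker vector of norm at least one; the
Pluecker vectors of two frames are proportional -/
theorem pl_frame (x : Gr ℝ ι 2) : ∃ (v : Fr ℝ ι 2) (d : ℝ), sp v = x ∧ d ≠ 0 ∧
    pl x = d • wd (v.1 0) (v.1 1) ∧ ‖v.1 0‖ ≤ 1 ∧ ‖v.1 1‖ ≤ 1 ∧ 1 ≤ ‖wd (v.1 0) (v.1 1)‖ := by
  obtain ⟨I', v, hv, hx⟩ := exists_ch x
  obtain ⟨A, hA, h⟩ := (sp_eq v (fr x)).1 (by rw [hx, sp_fr])
  refine ⟨v, A.det, hx, hA, ?_, (pi_norm_le_iff_of_nonneg zero_le_one).2 (hv.2 0),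
    (pi_norm_le_iff_of_nonneg zero_le_one).2 (hv.2 1), ?_⟩
  · funext p
    have e0 : ∀ b i, (fr x).1 b i = A b 0 * v.1 0 i + A b 1 * v.1 1 i := fun b i => by
      rw [h]
      simp [cb, Fin.sum_univ_two]
    simp only [pl, wd, Pi.smul_apply, smul_eq_mul, e0, Matrix.det_fin_two]
    ring
  · have h1 := norm_le_pi_norm (wd (v.1 0) (v.1 1)) (I' 0, I' 1)
    have e : wd (v.1 0) (v.1 1) (I' 0, I' 1) = 1 := by
      simp only [wd, hv.1]
      simp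
    rwa [e, norm_one] at h1

/-- **D.** the function -/
theorem lemD (hv : v₀ ∈ ch (k := ℝ) I) {A B : Matrix ι ι ℝ} {N r C ε : ℝ} (h : Hw A B N r C)
    (hε0 : 0 ≤ ε) (hε : ε < 1) {G : (ι × ι → ℝ) → ℂ} {CG : ℝ} (hCG : 0 ≤ CG)
    (hG : ∀ a b, ‖G a - G b‖ * ‖a‖ ≤ CG * ‖a - b‖)
    (hG3 : ∀ (c : ℝ) a, c ≠ 0 → G (c • a) = G a) {x : Gr ℝ ι 2} (hx : x ∈ GC 2 I v₀ ε) :
    ‖G (PlF.sq A *ᵥ pl x) - G (Tm A N v₀ (sec (J2 I) x))‖ ≤
      CG * (24 * cn ι ^ 4 * C ^ 4) * ε / r := by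
  have hN := h.N_pos
  have hr := h.r_pos
  have hC := h.C_pos
  have hcn := cn_nonneg (ι := ι)
  obtain ⟨v, d, rfl, hd, e1, h0, h1, h2⟩ := pl_frame x
  have hinj := GC_inj hε hx
  obtain ⟨c, hc, e2⟩ := sec_eq (J2 I) v (vc_J2_ne hinj)
  have e3 : vc (J2 I) v.1 = cr (fun a => v.1 0 (I a)) (fun a => v.1 1 (I a)) := vc_J2 I v.1
  have e4 : ∀ b : Fin 2, Vf v₀ (fun a => v.1 b (I a)) = prj I v₀ (v.1 b) := fun b => rfl
  have e5 : Tm A N v₀ (sec (J2 I) (sp v)) =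
      (c * (N ^ 2)⁻¹) • (PlF.sq A *ᵥ wd (prj I v₀ (v.1 0)) (prj I v₀ (v.1 1))) := by
    rw [e2, e3, map_smul, Tm_apply, om_cr, e4, e4, smul_smul]
  have e6 : G (Tm A N v₀ (sec (J2 I) (sp v))) =
      G (PlF.sq A *ᵥ wd (prj I v₀ (v.1 0)) (prj I v₀ (v.1 1))) := by
    rw [e5, hG3 _ _ (mul_ne_zero hc (by positivity))]
  have e7 : G (PlF.sq A *ᵥ pl (sp v)) = G (PlF.sq A *ᵥ wd (v.1 0) (v.1 1)) := by
    rw [e1, Matrix.mulVec_smul, hG3 _ _ hd]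
  have m0 : ∀ b : Fin 2, v.1 b ∈ (sp v).1 := fun b => by
    fin_cases b
    · exact mem_sp2.2 ⟨1, 0, by simp⟩
    · exact mem_sp2.2 ⟨0, 1, by simp⟩
  have hn : ∀ b : Fin 2, ‖v.1 b‖ ≤ 1 := fun b => by
    fin_cases b
    · exact h0
    · exact h1
  have hp : ∀ b : Fin 2, ‖v.1 b - prj I v₀ (v.1 b)‖ ≤ ε := fun b =>
    (hx _ (m0 b)).trans (by have := hn b; nlinarith)
  have hq : ∀ b : Fin 2, ‖prj I v₀ (v.1 b)‖ ≤ 3 := fun b =>
    (prj_le hv _).trans (by have := hn b; linarith)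
  have hdif : ‖wd (v.1 0) (v.1 1) - wd (prj I v₀ (v.1 0)) (prj I v₀ (v.1 1))‖ ≤ 8 * ε := by
    have e8 : wd (v.1 0) (v.1 1) - wd (prj I v₀ (v.1 0)) (prj I v₀ (v.1 1)) =
        wd (v.1 0 - prj I v₀ (v.1 0)) (v.1 1) +
          wd (prj I v₀ (v.1 0)) (v.1 1 - prj I v₀ (v.1 1)) := by
      funext p
      simp only [wd, Pi.sub_apply, Pi.add_apply]
      ring
    rw [e8]
    have a1 := wd_le (hp 0) (hn 1)
    have a2 := wd_le (hq 0) (hp 1)
    exact (norm_add_le _ _).trans (by linarith)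
  set a := PlF.sq A *ᵥ wd (v.1 0) (v.1 1) with ha
  set b := PlF.sq A *ᵥ wd (prj I v₀ (v.1 0)) (prj I v₀ (v.1 1)) with hb
  have hab : ‖a - b‖ ≤ cn ι ^ 2 * (C ^ 2 * N ^ 2 * (8 * ε)) := by
    rw [ha, hb, ← Matrix.mulVec_sub]
    exact (h.up_sq _).trans (by gcongr)
  have han : r * N ^ 2 ≤ 3 * cn ι ^ 2 * C ^ 2 * ‖a‖ := by
    have := h.low_sq (alt_wd (v.1 0) (v.1 1))
    have h3 : r * N ^ 2 * 1 ≤ r * N ^ 2 * ‖wd (v.1 0) (v.1 1)‖ := by gcongr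
    linarith
  rw [e7, e6, le_div_iff₀ hr]
  have h4 := hG a b
  have h5 : ‖G a - G b‖ * (r * N ^ 2) ≤
      3 * cn ι ^ 2 * C ^ 2 * (CG * (cn ι ^ 2 * (C ^ 2 * N ^ 2 * (8 * ε)))) := by
    calc ‖G a - G b‖ * (r * N ^ 2) ≤ ‖G a - G b‖ * (3 * cn ι ^ 2 * C ^ 2 * ‖a‖) :=
          mul_le_mul_of_nonneg_left han (norm_nonneg _)
      _ = 3 * cn ι ^ 2 * C ^ 2 * (‖G a - G b‖ * ‖a‖) := by ring
      _ ≤ 3 * cn ι ^ 2 * C ^ 2 * (CG * (cn ι ^ 2 * (C ^ 2 * N ^ 2 * (8 * ε)))) := by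
          exact mul_le_mul_of_nonneg_left (h4.trans (mul_le_mul_of_nonneg_left hab hCG))
            (by positivity)
  have h6 : 0 < N ^ 2 := by positivity
  refine le_of_mul_le_mul_right ?_ h6
  calc ‖G a - G b‖ * r * N ^ 2 = ‖G a - G b‖ * (r * N ^ 2) := by ring
    _ ≤ 3 * cn ι ^ 2 * C ^ 2 * (CG * (cn ι ^ 2 * (C ^ 2 * N ^ 2 * (8 * ε)))) := h5
    _ = CG * (24 * cn ι ^ 4 * C ^ 4) * ε * N ^ 2 := by ring

end Vale.Agent.P092.H99.Lin
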