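import Vale.Agent.P092.H99.Cell
import Vale.Agent.P092.H835.PlF

/-!
P092, TEAM N, block [N-K-T] (helper99): the restriction of a near-wall matrix (hyperplane type) to
the lines of a three dimensional space.

`v₀` = normalised frame of the three space, `om v₀ s` = the 2-vector of the plane with normal `s`,
`Tm A N v₀ s = N⁻² • Λ²A (om v₀ s)`.
-/

set_option linter.all false

open Module Set
open scoped Matrix

namespace Vale.Agent.P092.H99.Lin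

open Vale.Agent.P092.H100.Gr Vale.Agent.P092.H99.Sec Vale.Agent.P092.H835.PlF
open Vale.Agent.P092.H87.N Vale.Agent.P092.H820 Vale.Agent.P092.H835

variable {ι : Type*} [Fintype ι]

/-- the cross product -/
noncomputable def cr (p q : Fin 3 → ℝ) : Fin 3 → ℝ :=
  ![p 1 * q 2 - p 2 * q 1, p 2 * q 0 - p 0 * q 2, p 0 * q 1 - p 1 * q 0]

/-- the vector with the coordinates `x` in the frame -/
noncomputable def Vf (v₀ : Fin 3 → ι → ℝ) (x : Fin 3 → ℝ) : ι → ℝ := ∑ a, x a • v₀ a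

theorem Vf_apply (v₀ : Fin 3 → ι → ℝ) (x : Fin 3 → ℝ) (i : ι) :
    Vf v₀ x i = x 0 * v₀ 0 i + x 1 * v₀ 1 i + x 2 * v₀ 2 i := by
  simp [Vf, Fin.sum_univ_three]

/-- the 2-vector with normal `s` -/
noncomputable def om (v₀ : Fin 3 → ι → ℝ) : (Fin 3 → ℝ) →ₗ[ℝ] (ι × ι → ℝ) where
  toFun s := s 0 • wd (v₀ 1) (v₀ 2) + s 1 • wd (v₀ 2) (v₀ 0) + s 2 • wd (v₀ 0) (v₀ 1)
  map_add' s s' := by
    funext p
    simp only [Pi.add_apply, Pi.smul_apply, smul_eq_mul]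
    ring
  map_smul' c s := by
    funext p
    simp only [Pi.add_apply, Pi.smul_apply, smul_eq_mul, RingHom.id_apply]
    ring

theorem om_apply (v₀ : Fin 3 → ι → ℝ) (s : Fin 3 → ℝ) (p : ι × ι) : om v₀ s p =
    s 0 * wd (v₀ 1) (v₀ 2) p + s 1 * wd (v₀ 2) (v₀ 0) p + s 2 * wd (v₀ 0) (v₀ 1) p := rfl

theorem om_cr (v₀ : Fin 3 → ι → ℝ) (p q : Fin 3 → ℝ) :
    om v₀ (cr p q) = wd (Vf v₀ p) (Vf v₀ q) := by
  funext x
  rw [om_apply]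
  simp only [cr, wd, Vf_apply, Matrix.cons_val_zero, Matrix.cons_val_one, Matrix.cons_val]
  ring

theorem om_alt (v₀ : Fin 3 → ι → ℝ) (s : Fin 3 → ℝ) : Alt (om v₀ s) := by
  refine ⟨fun i => ?_, fun i j => ?_⟩
  · rw [om_apply]; simp only [wd]; ring
  · rw [om_apply, om_apply]; simp only [wd]; ring

section frame

variable {I : Fin 3 → ι} {v₀ : Fin 3 → ι → ℝ}

theorem fr_eq (hv : v₀ ∈ ch (k := ℝ) I) (b a : Fin 3) : v₀ b (I a) = if b = a then 1 else 0 := by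
  rw [hv.1 b a, Matrix.one_apply]

theorem om_12 (hv : v₀ ∈ ch (k := ℝ) I) (s : Fin 3 → ℝ) : om v₀ s (I 1, I 2) = s 0 := by
  rw [om_apply]; simp [wd, fr_eq hv]

theorem om_20 (hv : v₀ ∈ ch (k := ℝ) I) (s : Fin 3 → ℝ) : om v₀ s (I 2, I 0) = s 1 := by
  rw [om_apply]; simp [wd, fr_eq hv]

theorem om_01 (hv : v₀ ∈ ch (k := ℝ) I) (s : Fin 3 → ℝ) : om v₀ s (I 0, I 1) = s 2 := by
  rw [om_apply]; simp [wd, fr_eq hv]

theorem om_02 (hv : v₀ ∈ ch (k := ℝ) I) (s : Fin 3 → ℝ) : om v₀ s (I 0, I 2) = - s 1 := by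
  rw [om_apply]; simp [wd, fr_eq hv]

theorem norm_le_om (hv : v₀ ∈ ch (k := ℝ) I) (s : Fin 3 → ℝ) : ‖s‖ ≤ ‖om v₀ s‖ := by
  refine (pi_norm_le_iff_of_nonneg (norm_nonneg _)).2 fun a => ?_
  fin_cases a
  · change ‖s 0‖ ≤ _
    rw [← om_12 hv s]; exact norm_le_pi_norm _ _
  · change ‖s 1‖ ≤ _
    rw [← om_20 hv s]; exact norm_le_pi_norm _ _
  · change ‖s 2‖ ≤ _
    rw [← om_01 hv s]; exact norm_le_pi_norm _ _

theorem wd_le {x y : ι → ℝ} {a b : ℝ} (hx : ‖x‖ ≤ a) (hy : ‖y‖ ≤ b) : ‖wd x y‖ ≤ 2 * (a * b) := by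
  have ha : 0 ≤ a := (norm_nonneg _).trans hx
  have hb : 0 ≤ b := (norm_nonneg _).trans hy
  refine (pi_norm_le_iff_of_nonneg (by positivity)).2 fun p => ?_
  have h1 : ∀ i j, ‖x i * y j‖ ≤ a * b := fun i j => by
    rw [norm_mul]
    exact mul_le_mul ((norm_le_pi_norm x i).trans hx) ((norm_le_pi_norm y j).trans hy)
      (norm_nonneg _) ha
  have := norm_sub_le (x p.1 * y p.2) (x p.2 * y p.1)
  have h2 := h1 p.1 p.2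
  have h3 := h1 p.2 p.1
  calc ‖wd x y p‖ ≤ ‖x p.1 * y p.2‖ + ‖x p.2 * y p.1‖ := this
    _ ≤ 2 * (a * b) := by linarith

theorem frame_le (hv : v₀ ∈ ch (k := ℝ) I) (a : Fin 3) : ‖v₀ a‖ ≤ 1 :=
  (pi_norm_le_iff_of_nonneg zero_le_one).2 (hv.2 a)

theorem om_le (hv : v₀ ∈ ch (k := ℝ) I) (s : Fin 3 → ℝ) : ‖om v₀ s‖ ≤ 6 * ‖s‖ := by
  have h1 : ∀ a b, ‖wd (v₀ a) (v₀ b)‖ ≤ 2 := fun a b => by
    have := wd_le (frame_le hv a) (frame_le hv b)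
    linarith
  have h2 : ∀ a b c, ‖s c • wd (v₀ a) (v₀ b)‖ ≤ ‖s‖ * 2 := fun a b c => by
    rw [norm_smul]
    exact mul_le_mul (norm_le_pi_norm s c) (h1 a b) (norm_nonneg _) (norm_nonneg _)
  have e : om v₀ s = s 0 • wd (v₀ 1) (v₀ 2) + s 1 • wd (v₀ 2) (v₀ 0) + s 2 • wd (v₀ 0) (v₀ 1) :=
    rfl
  rw [e]
  have := norm_add₃_le (a := s 0 • wd (v₀ 1) (v₀ 2)) (b := s 1 • wd (v₀ 2) (v₀ 0))
    (c := s 2 • wd (v₀ 0) (v₀ 1))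
  have a1 := h2 1 2 0
  have a2 := h2 2 0 1
  have a3 := h2 0 1 2
  linarith

theorem Vf_le (hv : v₀ ∈ ch (k := ℝ) I) (x : Fin 3 → ℝ) : ‖Vf v₀ x‖ ≤ 3 * ‖x‖ := by
  unfold Vf
  refine (norm_sum_le _ _).trans ?_
  calc ∑ a : Fin 3, ‖x a • v₀ a‖ ≤ ∑ _a : Fin 3, ‖x‖ := by
        refine Finset.sum_le_sum fun a _ => ?_
        rw [norm_smul]
        calc ‖x a‖ * ‖v₀ a‖ ≤ ‖x‖ * 1 :=
              mul_le_mul (norm_le_pi_norm x a) (frame_le hv a) (norm_nonneg _) (norm_nonneg _)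
          _ = ‖x‖ := mul_one _
    _ = 3 * ‖x‖ := by simp

theorem w3_om (hv : v₀ ∈ ch (k := ℝ) I) (x : ι → ℝ) (s : Fin 3 → ℝ) :
    w3 x (om v₀ s) (I 0, (I 1, I 2)) = x (I 0) * s 0 + x (I 1) * s 1 + x (I 2) * s 2 := by
  simp only [w3, om_12 hv, om_02 hv, om_01 hv]
  ring

end frame

/-- the model operator on the lines of the three space -/
noncomputable def Tm (A : Matrix ι ι ℝ) (N : ℝ) (v₀ : Fin 3 → ι → ℝ) :
    (Fin 3 → ℝ) →ₗ[ℝ] (ι × ι → ℝ) := (N ^ 2)⁻¹ • (Matrix.mulVecLin (PlF.sq A)).comp (om v₀)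

theorem Tm_apply (A : Matrix ι ι ℝ) (N : ℝ) (v₀ : Fin 3 → ι → ℝ) (s : Fin 3 → ℝ) :
    Tm A N v₀ s = (N ^ 2)⁻¹ • (PlF.sq A *ᵥ om v₀ s) := rfl

theorem cr_cr (η v : Fin 3 → ℝ) (m : Fin 3) :
    cr η (cr v (Pi.single m 1)) = (η m) • v - (η ⬝ᵥ v) • (Pi.single m 1 : Fin 3 → ℝ) := by
  funext i
  have e : η ⬝ᵥ v = η 0 * v 0 + η 1 * v 1 + η 2 * v 2 := by
    simp [dotProduct, Fin.sum_univ_three]
  rw [Pi.sub_apply, Pi.smul_apply, Pi.smul_apply, e]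
  fin_cases m <;> fin_cases i <;> simp [cr, Pi.single_apply] <;> ring

theorem cr_single_le (v : Fin 3 → ℝ) (m : Fin 3) : ‖cr v (Pi.single m 1)‖ ≤ ‖v‖ := by
  have h : ∀ a, ‖v a‖ ≤ ‖v‖ := fun a => norm_le_pi_norm v a
  refine (pi_norm_le_iff_of_nonneg (norm_nonneg _)).2 fun i => ?_
  fin_cases m <;> fin_cases i <;> simp [cr, Pi.single_apply] <;>
    first | exact h 0 | exact h 1 | exact h 2

/-- constants -/
noncomputable def Dc (n C C₁ : ℝ) : ℝ :=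
  6 * n ^ 2 * C ^ 2 + 3 * n ^ 2 * C ^ 2 + 72 * n ^ 3 * C ^ 3 * C + 36 * n * C ^ 2 * (1 + n * C₁)

section main

variable {A B : Matrix ι ι ℝ} {N r C C₁ : ℝ} {η : ι → ℝ} {I : Fin 3 → ι} {v₀ : Fin 3 → ι → ℝ}
variable {m : Fin 3}

theorem Tm_low' (h : Hw A B N r C) (hv : v₀ ∈ ch (k := ℝ) I) (v : Fin 3 → ℝ) :
    r * ‖v‖ ≤ 3 * cn ι ^ 2 * C ^ 2 * ‖Tm A N v₀ v‖ := by
  have hN := h.N_pos
  have h1 := h.low_sq (om_alt v₀ v)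
  have h2 := norm_le_om hv v
  have e : ‖Tm A N v₀ v‖ = (N ^ 2)⁻¹ * ‖PlF.sq A *ᵥ om v₀ v‖ := by
    rw [Tm_apply, norm_smul, norm_inv, Real.norm_of_nonneg (by positivity : (0:ℝ) ≤ N ^ 2)]
  have h3 : r * N ^ 2 * ‖v‖ ≤ 3 * cn ι ^ 2 * C ^ 2 * ‖PlF.sq A *ᵥ om v₀ v‖ :=
    (mul_le_mul_of_nonneg_left h2 (mul_nonneg h.r_pos.le (by positivity))).trans h1
  rw [e]
  calc r * ‖v‖ = (N ^ 2)⁻¹ * (r * N ^ 2 * ‖v‖) := by field_simp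
    _ ≤ (N ^ 2)⁻¹ * (3 * cn ι ^ 2 * C ^ 2 * ‖PlF.sq A *ᵥ om v₀ v‖) :=
        mul_le_mul_of_nonneg_left h3 (by positivity)
    _ = _ := by ring

theorem Tm_low (h : Hw A B N r C) (hv : v₀ ∈ ch (k := ℝ) I) (hη : ‖A *ᵥ η‖ ≤ C * (r * N) * ‖η‖)
    (hη1 : ‖η‖ ≤ 1) (hm : 1 / 6 ≤ |η (I m)|) (v : Fin 3 → ℝ) :
    |(fun a => η (I a) / η (I m)) ⬝ᵥ v| ≤ 72 * cn ι ^ 3 * C ^ 3 * C * ‖Tm A N v₀ v‖ := by
  have hN := h.N_pos
  have hC := h.C_pos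
  have hcn := cn_nonneg (ι := ι)
  have hm0 : 0 < |η (I m)| := lt_of_lt_of_le (by norm_num) hm
  have e0 : (fun a => η (I a) / η (I m)) ⬝ᵥ v =
      w3 η (om v₀ v) (I 0, (I 1, I 2)) / η (I m) := by
    rw [w3_om hv]
    simp only [dotProduct, Fin.sum_univ_three]
    ring
  have h1 := h.p2 hη (om_alt v₀ v)
  have h2 : |w3 η (om v₀ v) (I 0, (I 1, I 2))| ≤ ‖w3 η (om v₀ v)‖ := by
    rw [← Real.norm_eq_abs]
    exact norm_le_pi_norm (w3 η (om v₀ v)) (I 0, (I 1, I 2))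
  have e : ‖Tm A N v₀ v‖ = (N ^ 2)⁻¹ * ‖PlF.sq A *ᵥ om v₀ v‖ := by
    rw [Tm_apply, norm_smul, norm_inv, Real.norm_of_nonneg (by positivity : (0:ℝ) ≤ N ^ 2)]
  have h3 : N ^ 2 * |w3 η (om v₀ v) (I 0, (I 1, I 2))| ≤
      12 * cn ι ^ 3 * C ^ 3 * C * ‖PlF.sq A *ᵥ om v₀ v‖ := by
    refine (mul_le_mul_of_nonneg_left h2 (by positivity)).trans (h1.trans ?_)
    have : ‖η‖ * ‖PlF.sq A *ᵥ om v₀ v‖ ≤ ‖PlF.sq A *ᵥ om v₀ v‖ :=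
      mul_le_of_le_one_left (norm_nonneg _) hη1
    exact mul_le_mul_of_nonneg_left this (by positivity)
  rw [e0, abs_div, div_le_iff₀ hm0, e]
  have h4 : |w3 η (om v₀ v) (I 0, (I 1, I 2))| ≤
      12 * cn ι ^ 3 * C ^ 3 * C * ((N ^ 2)⁻¹ * ‖PlF.sq A *ᵥ om v₀ v‖) := by
    calc |w3 η (om v₀ v) (I 0, (I 1, I 2))| =
          (N ^ 2)⁻¹ * (N ^ 2 * |w3 η (om v₀ v) (I 0, (I 1, I 2))|) := by field_simp
      _ ≤ (N ^ 2)⁻¹ * (12 * cn ι ^ 3 * C ^ 3 * C * ‖PlF.sq A *ᵥ om v₀ v‖) :=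
          mul_le_mul_of_nonneg_left h3 (by positivity)
      _ = _ := by ring
  have h5 : 0 ≤ 72 * cn ι ^ 3 * C ^ 3 * C * ((N ^ 2)⁻¹ * ‖PlF.sq A *ᵥ om v₀ v‖) := by positivity
  nlinarith

theorem Tm_bet (h : Hw A B N r C) (hv : v₀ ∈ ch (k := ℝ) I) (v : Fin 3 → ℝ) :
    ‖Tm A N v₀ v‖ ≤ 6 * cn ι ^ 2 * C ^ 2 * ‖v‖ := by
  have hN := h.N_pos
  have hC := h.C_pos
  have hcn := cn_nonneg (ι := ι)
  have e : ‖Tm A N v₀ v‖ = (N ^ 2)⁻¹ * ‖PlF.sq A *ᵥ om v₀ v‖ := by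
    rw [Tm_apply, norm_smul, norm_inv, Real.norm_of_nonneg (by positivity : (0:ℝ) ≤ N ^ 2)]
  rw [e]
  calc (N ^ 2)⁻¹ * ‖PlF.sq A *ᵥ om v₀ v‖ ≤ (N ^ 2)⁻¹ * (cn ι ^ 2 * (C ^ 2 * N ^ 2 * ‖om v₀ v‖)) :=
        mul_le_mul_of_nonneg_left (h.up_sq _) (by positivity)
    _ = cn ι ^ 2 * C ^ 2 * ‖om v₀ v‖ := by field_simp
    _ ≤ cn ι ^ 2 * C ^ 2 * (6 * ‖v‖) := mul_le_mul_of_nonneg_left (om_le hv v) (by positivity)
    _ = _ := by ring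

theorem Tm_rem (h : Hw A B N r C) (hv : v₀ ∈ ch (k := ℝ) I) (hη : ‖A *ᵥ η‖ ≤ C * (r * N) * ‖η‖)
    (hη1 : ‖η‖ ≤ 1) (hC₁ : 0 ≤ C₁) (hηp : ‖η - prj I v₀ η‖ ≤ C₁ * r) (hm : 1 / 6 ≤ |η (I m)|)
    (v : Fin 3 → ℝ) :
    ‖Tm A N v₀ v - ((fun a => η (I a) / η (I m)) ⬝ᵥ v) • Tm A N v₀ (Pi.single m 1)‖ ≤
      36 * cn ι * C ^ 2 * (1 + cn ι * C₁) * r * ‖v‖ := by
  have hN := h.N_pos
  have hr := h.r_pos
  have hC := h.C_pos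
  have hcn := cn_nonneg (ι := ι)
  have hm0 : η (I m) ≠ 0 := fun h0 => by rw [h0, abs_zero] at hm; norm_num at hm
  set η' : Fin 3 → ℝ := fun a => η (I a) / η (I m) with hη'
  have e1 : η' m = 1 := div_self hm0
  have e2 : Tm A N v₀ v - (η' ⬝ᵥ v) • Tm A N v₀ (Pi.single m 1) =
      Tm A N v₀ (cr η' (cr v (Pi.single m 1))) := by
    rw [cr_cr, e1, one_smul, map_sub, map_smul]
  have e3 : Tm A N v₀ (cr η' (cr v (Pi.single m 1))) =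
      (N ^ 2)⁻¹ • wd (A *ᵥ Vf v₀ η') (A *ᵥ Vf v₀ (cr v (Pi.single m 1))) := by
    rw [Tm_apply, om_cr, sq_wd]
  have e4 : Vf v₀ η' = (η (I m))⁻¹ • prj I v₀ η := by
    simp only [Vf, prj, hη', Finset.smul_sum, smul_smul]
    refine Finset.sum_congr rfl fun a _ => ?_
    rw [div_eq_inv_mul]
  have h1 : ‖A *ᵥ prj I v₀ η‖ ≤ C * (1 + cn ι * C₁) * (r * N) := by
    have e5 : A *ᵥ prj I v₀ η = A *ᵥ η - A *ᵥ (η - prj I v₀ η) := by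
      rw [Matrix.mulVec_sub]; abel
    rw [e5]
    refine (norm_sub_le _ _).trans ?_
    have h2 := h.up (η - prj I v₀ η)
    calc ‖A *ᵥ η‖ + ‖A *ᵥ (η - prj I v₀ η)‖ ≤ C * (r * N) * ‖η‖ + cn ι * (C * N * (C₁ * r)) := by
          refine add_le_add hη (h2.trans ?_)
          gcongr
      _ ≤ C * (r * N) * 1 + cn ι * (C * N * (C₁ * r)) := by gcongr
      _ = _ := by ring
  have h2 : ‖A *ᵥ Vf v₀ η'‖ ≤ 6 * (C * (1 + cn ι * C₁) * (r * N)) := by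
    rw [e4, Matrix.mulVec_smul, norm_smul, norm_inv, Real.norm_eq_abs]
    have h3 : |η (I m)|⁻¹ ≤ 6 := by
      rw [inv_le_comm₀ (lt_of_lt_of_le (by norm_num) hm) (by norm_num)]
      linarith
    exact mul_le_mul h3 h1 (norm_nonneg _) (by norm_num)
  have h3 : ‖A *ᵥ Vf v₀ (cr v (Pi.single m 1))‖ ≤ cn ι * (C * N * (3 * ‖v‖)) := by
    refine (h.up _).trans ?_
    have h4 := (Vf_le hv (cr v (Pi.single m 1))).trans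
      (mul_le_mul_of_nonneg_left (cr_single_le v m) (by norm_num))
    gcongr
  rw [e2, e3, norm_smul, norm_inv, Real.norm_of_nonneg (by positivity : (0:ℝ) ≤ N ^ 2)]
  calc (N ^ 2)⁻¹ * ‖wd (A *ᵥ Vf v₀ η') (A *ᵥ Vf v₀ (cr v (Pi.single m 1)))‖ ≤
        (N ^ 2)⁻¹ * (2 * (6 * (C * (1 + cn ι * C₁) * (r * N)) * (cn ι * (C * N * (3 * ‖v‖))))) :=
        mul_le_mul_of_nonneg_left (wd_le h2 h3) (by positivity)
    _ = _ := by field_simp; ring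

end main

end Vale.Agent.P092.H99.Lin
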