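import Vale.Agent.P092.H99.Nj3R
import Vale.Agent.P092.H68.Nj3K
import Vale.Agent.P092.H890.Dens

/-!
P092, TEAM N, block [N-KS] (helper99): density of the Lipschitz functions of the representatives;
`NJB3Stmt ℝ` and `KeyStmt ℝ μ`, unconditional, every `n`.
-/

set_option linter.all false

open scoped InnerProductSpace ENNReal LinearAlgebra.Projectivization ZeroAtInfty Matrix
open Filter Topology ContinuousLinearMap MeasureTheory TopologicalSpace

namespace Vale.Agent.P092.H99.Nj3R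

open Vale.Agent.P092.SN
open Vale.Agent.P092.H68.Nj3

section dens

variable {β : Type} [Fintype β]

/-- the generator `v_p v_q / Σ v_i ^ 2` -/
noncomputable def gr (p q : β) (v : β → ℝ) : ℝ := v p * v q / ∑ i, v i ^ 2

theorem sum_sq_ge (v : β → ℝ) (i : β) : v i ^ 2 ≤ ∑ i, v i ^ 2 :=
  Finset.single_le_sum (f := fun i => v i ^ 2) (fun _ _ => sq_nonneg _) (Finset.mem_univ i)

theorem sum_sq_nonneg (v : β → ℝ) : 0 ≤ ∑ i, v i ^ 2 := Finset.sum_nonneg fun _ _ => sq_nonneg _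

theorem norm_sq_le (v : β → ℝ) : ‖v‖ ^ 2 ≤ ∑ i, v i ^ 2 := by
  have h : ‖v‖ ≤ √ (∑ i, v i ^ 2) := by
    refine (pi_norm_le_iff_of_nonneg (Real.sqrt_nonneg _)).2 fun i => ?_
    refine Real.le_sqrt_of_sq_le ?_
    rw [Real.norm_eq_abs, sq_abs]
    exact sum_sq_ge v i
  calc ‖v‖ ^ 2 ≤ √ (∑ i, v i ^ 2) ^ 2 := pow_le_pow_left₀ (norm_nonneg _) h 2
    _ = _ := Real.sq_sqrt (sum_sq_nonneg v)

theorem gr_le (p q : β) (v : β → ℝ) : |gr p q v| ≤ 1 := by
  rcases (sum_sq_nonneg v).eq_or_lt with h | h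
  · rw [gr, ← h]; simp
  · rw [gr, abs_div, abs_of_pos h, div_le_one h, abs_mul]
    have h1 := sum_sq_ge v p
    have h2 := sum_sq_ge v q
    nlinarith [sq_abs (v p), sq_abs (v q), sq_nonneg (|v p| - |v q|)]

theorem gr_lip (p q : β) (a b : β → ℝ) :
    |gr p q a - gr p q b| * ‖a‖ ≤ (3 + 3 * (Fintype.card β : ℝ)) * ‖a - b‖ := by
  have hn : (0 : ℝ) ≤ Fintype.card β := Nat.cast_nonneg _
  have hd := norm_nonneg (a - b)
  rcases eq_or_ne a 0 with ha | ha
  · rw [ha, norm_zero, mul_zero]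
    positivity
  have hna : 0 < ‖a‖ := norm_pos_iff.2 ha
  by_cases hb : ‖a‖ ≤ ‖a - b‖
  · have h1 : |gr p q a - gr p q b| ≤ 2 := by
      refine (abs_sub _ _).trans ?_
      linarith [gr_le p q a, gr_le p q b]
    calc _ ≤ 2 * ‖a - b‖ := by gcongr
      _ ≤ _ := by nlinarith
  · push Not at hb
    have hnb : ‖b‖ ≤ 2 * ‖a‖ := by
      have : ‖b‖ ≤ ‖a‖ + ‖a - b‖ := by
        have e : b = a - (a - b) := by abel
        conv_lhs => rw [e]
        exact norm_sub_le _ _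
      linarith
    have hb0 : b ≠ 0 := by
      rintro rfl
      rw [sub_zero] at hb
      exact lt_irrefl _ hb
    have hs : 0 < ∑ i, a i ^ 2 := lt_of_lt_of_le (by positivity) (norm_sq_le a)
    have ht : 0 < ∑ i, b i ^ 2 := lt_of_lt_of_le (by
      have := norm_pos_iff.2 hb0
      positivity) (norm_sq_le b)
    have e : gr p q a - gr p q b = ((a p - b p) * a q + b p * (a q - b q)) / ∑ i, a i ^ 2 +
        gr p q b * ((∑ i, (b i - a i) * (b i + a i)) / ∑ i, a i ^ 2) := by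
      have e1 : ∑ i, (b i - a i) * (b i + a i) = ∑ i, b i ^ 2 - ∑ i, a i ^ 2 := by
        rw [← Finset.sum_sub_distrib]
        exact Finset.sum_congr rfl fun i _ => by ring
      rw [e1, gr, gr]
      field_simp
      ring
    have hai : ∀ i, |a i| ≤ ‖a‖ := fun i => norm_le_pi_norm a i
    have hbi : ∀ i, |b i| ≤ 2 * ‖a‖ := fun i => (norm_le_pi_norm b i).trans hnb
    have hdi : ∀ i, |a i - b i| ≤ ‖a - b‖ := fun i => norm_le_pi_norm (a - b) i
    have h1 : |(a p - b p) * a q + b p * (a q - b q)| ≤ 3 * ‖a‖ * ‖a - b‖ := by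
      refine (abs_add_le _ _).trans ?_
      rw [abs_mul, abs_mul]
      have h2 : |a p - b p| * |a q| ≤ ‖a - b‖ * ‖a‖ :=
        mul_le_mul (hdi p) (hai q) (abs_nonneg _) hd
      have h3 : |b p| * |a q - b q| ≤ 2 * ‖a‖ * ‖a - b‖ :=
        mul_le_mul (hbi p) (hdi q) (abs_nonneg _) (by positivity)
      linarith
    have h4 : |∑ i, (b i - a i) * (b i + a i)| ≤ Fintype.card β * (3 * ‖a‖ * ‖a - b‖) := by
      refine (Finset.abs_sum_le_sum_abs _ _).trans ?_
      refine (Finset.sum_le_sum (g := fun _ => 3 * ‖a‖ * ‖a - b‖) fun i _ => ?_).trans ?_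
      · rw [abs_mul]
        have h5 : |b i + a i| ≤ 3 * ‖a‖ := by
          refine (abs_add_le _ _).trans ?_
          linarith [hai i, hbi i]
        have h6 : |b i - a i| ≤ ‖a - b‖ := by rw [abs_sub_comm]; exact hdi i
        calc _ ≤ ‖a - b‖ * (3 * ‖a‖) := mul_le_mul h6 h5 (abs_nonneg _) hd
          _ = _ := by ring
      · rw [Finset.sum_const, Finset.card_univ, nsmul_eq_mul]
    have h7 : |gr p q a - gr p q b| ≤
        (3 * ‖a‖ * ‖a - b‖ + Fintype.card β * (3 * ‖a‖ * ‖a - b‖)) / ∑ i, a i ^ 2 := by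
      rw [e]
      refine (abs_add_le _ _).trans ?_
      rw [add_div (3 * ‖a‖ * ‖a - b‖)]
      refine add_le_add ?_ ?_
      · rw [abs_div, abs_of_pos hs]
        gcongr
      · rw [abs_mul, abs_div, abs_of_pos hs]
        calc _ ≤ 1 * (Fintype.card β * (3 * ‖a‖ * ‖a - b‖) / ∑ i, a i ^ 2) := by
              gcongr
              exact gr_le p q b
          _ = _ := one_mul _
    have h8 : (3 * ‖a‖ * ‖a - b‖ + Fintype.card β * (3 * ‖a‖ * ‖a - b‖)) / ∑ i, a i ^ 2 ≤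
        (3 * ‖a‖ * ‖a - b‖ + Fintype.card β * (3 * ‖a‖ * ‖a - b‖)) / ‖a‖ ^ 2 := by
      gcongr
      exact norm_sq_le a
    calc |gr p q a - gr p q b| * ‖a‖
        ≤ (3 * ‖a‖ * ‖a - b‖ + Fintype.card β * (3 * ‖a‖ * ‖a - b‖)) / ‖a‖ ^ 2 * ‖a‖ := by
          gcongr
          exact h7.trans h8
      _ = _ := by
          field_simp

theorem gr_smul (p q : β) (c : ℝ) (v : β → ℝ) (hc : c ≠ 0) : gr p q (c • v) = gr p q v := by
  have e : ∑ i, (c • v) i ^ 2 = c ^ 2 * ∑ i, v i ^ 2 := by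
    rw [Finset.mul_sum]
    exact Finset.sum_congr rfl fun i _ => by
      rw [Pi.smul_apply, smul_eq_mul]; ring
  rw [gr, e, gr, Pi.smul_apply, Pi.smul_apply, smul_eq_mul, smul_eq_mul]
  rcases eq_or_ne (∑ i, v i ^ 2) 0 with h | h
  · rw [h]; simp
  · field_simp

/-- bounded Lipschitz homogeneous functions of the representatives -/
def LW (β : Type) [Fintype β] : Set C(ℙ ℝ (β → ℝ), ℂ) :=
  {G | ∃ (φ : (β → ℝ) → ℂ) (B L : ℝ), 0 ≤ B ∧ 0 ≤ L ∧ (∀ a, ‖φ a‖ ≤ B) ∧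
    (∀ a b, ‖φ a - φ b‖ * ‖a‖ ≤ L * ‖a - b‖) ∧ (∀ (c : ℝ) a, c ≠ 0 → φ (c • a) = φ a) ∧
    ∀ v hv, G (Projectivization.mk ℝ v hv) = φ v}

theorem LW.add {F G : C(ℙ ℝ (β → ℝ), ℂ)} (hF : F ∈ LW β) (hG : G ∈ LW β) : F + G ∈ LW β := by
  obtain ⟨φ, B, L, hB, hL, h1, h2, h3, h4⟩ := hF
  obtain ⟨φ', B', L', hB', hL', h1', h2', h3', h4'⟩ := hG
  refine ⟨fun v => φ v + φ' v, B + B', L + L', by positivity, by positivity,
    fun a => (norm_add_le _ _).trans (add_le_add (h1 a) (h1' a)), fun a b => ?_,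
    fun c v hc => by simp only [h3 c v hc, h3' c v hc],
    fun v hv => by rw [ContinuousMap.add_apply, h4, h4']⟩
  have e : φ a + φ' a - (φ b + φ' b) = (φ a - φ b) + (φ' a - φ' b) := by ring
  simp only [e]
  calc _ ≤ (‖φ a - φ b‖ + ‖φ' a - φ' b‖) * ‖a‖ := by
        gcongr
        exact norm_add_le _ _
    _ ≤ _ := by
        rw [add_mul, add_mul]
        exact add_le_add (h2 a b) (h2' a b)

theorem LW.mul {F G : C(ℙ ℝ (β → ℝ), ℂ)} (hF : F ∈ LW β) (hG : G ∈ LW β) : F * G ∈ LW β := by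
  obtain ⟨φ, B, L, hB, hL, h1, h2, h3, h4⟩ := hF
  obtain ⟨φ', B', L', hB', hL', h1', h2', h3', h4'⟩ := hG
  refine ⟨fun v => φ v * φ' v, B * B', B * L' + B' * L, by positivity, by positivity,
    fun a => ?_, fun a b => ?_,
    fun c v hc => by simp only [h3 c v hc, h3' c v hc],
    fun v hv => by rw [ContinuousMap.mul_apply, h4, h4']⟩
  · rw [norm_mul]
    exact mul_le_mul (h1 a) (h1' a) (norm_nonneg _) hB
  · have e : φ a * φ' a - φ b * φ' b = φ a * (φ' a - φ' b) + (φ a - φ b) * φ' b := by ring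
    simp only [e]
    calc _ ≤ (B * ‖φ' a - φ' b‖ + ‖φ a - φ b‖ * B') * ‖a‖ := by
          gcongr
          refine (norm_add_le _ _).trans ?_
          rw [norm_mul, norm_mul]
          gcongr
          · exact h1 a
          · exact h1' b
      _ = B * (‖φ' a - φ' b‖ * ‖a‖) + B' * (‖φ a - φ b‖ * ‖a‖) := by ring
      _ ≤ B * (L' * ‖a - b‖) + B' * (L * ‖a - b‖) :=
          add_le_add (mul_le_mul_of_nonneg_left (h2' a b) hB)
            (mul_le_mul_of_nonneg_left (h2 a b) hB')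
      _ = _ := by ring

theorem LW.const (c : ℂ) : ContinuousMap.const _ c ∈ LW β :=
  ⟨fun _ => c, ‖c‖, 0, norm_nonneg _, le_rfl, fun _ => le_rfl, fun a b => by simp,
    fun _ _ _ => rfl, fun _ _ => rfl⟩

theorem LW.span {F : C(ℙ ℝ (β → ℝ), ℂ)} (hF : F ∈ LW β) : F ∈ Submodule.span ℂ (LD β) := by
  obtain ⟨φ, B, L, hB, hL, h1, h2, h3, h4⟩ := hF
  have hB1 : (0 : ℝ) < B + 1 := by linarith
  have hB1' : ((B + 1 : ℝ) : ℂ) ≠ 0 := by exact_mod_cast hB1.ne'
  have hn : ‖((B + 1 : ℝ) : ℂ)⁻¹‖ = (B + 1)⁻¹ := by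
    rw [norm_inv, Complex.norm_real, Real.norm_eq_abs, abs_of_pos hB1]
  have h : ((B + 1 : ℝ) : ℂ)⁻¹ • F ∈ LD β := by
    refine ⟨fun v => ((B + 1 : ℝ) : ℂ)⁻¹ * φ v, (B + 1)⁻¹ * L, fun a => ?_, fun a b => ?_,
      fun c v hc => by simp only [h3 c v hc],
      fun v hv => by rw [ContinuousMap.smul_apply, h4, smul_eq_mul]⟩
    · rw [norm_mul, hn, inv_mul_le_iff₀ hB1, mul_one]
      linarith [h1 a]
    · rw [← mul_sub, norm_mul, hn, mul_assoc, mul_assoc]
      exact mul_le_mul_of_nonneg_left (h2 a b) (by positivity)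
  have e : F = ((B + 1 : ℝ) : ℂ) • (((B + 1 : ℝ) : ℂ)⁻¹ • F) := by
    rw [smul_smul, mul_inv_cancel₀ hB1', one_smul]
  rw [e]
  exact Submodule.smul_mem _ _ (Submodule.subset_span h)

/-- **the Lipschitz functions are dense** -/
theorem ld_dense (β : Type) [Fintype β] :
    closure (Submodule.span ℂ (LD β) : Set C(ℙ ℝ (β → ℝ), ℂ)) = Set.univ := by
  have hτ : ∀ x : ℝ, ‖(Complex.ofRealHom : ℝ →+* ℂ) x‖ = ‖x‖ := fun x => Complex.norm_real x
  have h : Dense (LW β) := by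
    refine (H890.dense_adjE (m := β) (Complex.ofRealHom : ℝ →+* ℂ) hτ).mono fun f hf => ?_
    refine Algebra.adjoin_induction (p := fun f _ => f ∈ LW β) ?_ ?_ ?_ ?_ hf
    · rintro f ⟨p, q, rfl⟩
      refine ⟨fun v => (gr p q v : ℂ), 1, 3 + 3 * (Fintype.card β : ℝ), zero_le_one,
        by positivity, fun a => ?_, fun a b => ?_, fun c v hc => ?_, fun v hv => ?_⟩
      · rw [Complex.norm_real]
        exact gr_le p q a
      · rw [← Complex.ofReal_sub, Complex.norm_real]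
        exact gr_lip p q a b
      · simp only [gr_smul p q c v hc]
      · have e := H890.E_apply (Complex.ofRealHom : ℝ →+* ℂ) hτ p q ⟨v, hv⟩
        refine e.trans ?_
        have e1 : H890.sq v = ∑ i, v i ^ 2 := by
          rw [H890.sq]
          exact Finset.sum_congr rfl fun i _ => by rw [Real.norm_eq_abs, sq_abs]
        change (v p : ℂ) * (starRingEnd ℂ) (v q : ℂ) / (H890.sq v : ℂ) = _
        rw [e1, Complex.conj_ofReal]
        change _ = ((v p * v q / ∑ i, v i ^ 2 : ℝ) : ℂ)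
        push_cast
        rfl
    · intro r
      exact LW.const r
    · intro f g _ _ hf hg
      exact LW.add hf hg
    · intro f g _ _ hf hg
      exact LW.mul hf hg
  exact (h.mono fun F hF => LW.span hF).closure_eq

end dens

/-- **`NJB3Stmt ℝ`**, every `n ≥ 3` -/
theorem nj3R : NJB3Stmt ℝ := nj3_real fun β _ => ld_dense β

/-- **`KeyStmt ℝ μ`**, every `n ≥ 3` -/
theorem keyR {μ : Measure ℝ} [IsFiniteMeasureOnCompacts μ] [μ.IsOpenPosMeasure] :
    KeyStmt ℝ μ := keyStmt3 nj3R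

end Vale.Agent.P092.H99.Nj3R
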