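import Vale.Agent.P092.H99.KakN
import Vale.Agent.P092.H99.Kl
import Vale.Agent.P092.H68.Nj3
import Vale.Agent.P092.H914.NJB

/-!
P092, TEAM N, block [N-KS] (helper99): `NJB3Stmt ℝ` by slicing along the plane `b + l`
(`kak_n`, helper874's `kak_lin`, helper464's `kak_chart`). The assembly is helper914's.
-/

set_option linter.all false

open scoped InnerProductSpace ENNReal LinearAlgebra.Projectivization ZeroAtInfty Matrix
open Filter Topology ContinuousLinearMap MeasureTheory TopologicalSpace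

namespace Vale.Agent.P092.H99.Nj3R

open Vale.Agent.P092.SN
open Vale.Agent.P092.RC (Cm TRN Moore GG PG YY y0 ct)
open Vale.Agent.P092.H100.Gr (Gr incG incG_closed)
open Vale.Agent.P092.H644.Gr3 (p1 hyp p1H p1_le_hyp p1_cont)
open Vale.Agent.P092.H87.N (nmn Attn taun yy cl NWn KR nwn_sh one_le_KR cn)
open Vale.Agent.P092.H464 (Pv CI)
open Vale.Agent.P092.H835.PlF (Alt w3 hw_of_NWn Hw)
open Vale.Agent.P092.H835.Pl (nw_of_NWn)
open Vale.Agent.P092.H835.NF (rr nfsl taun_inv_tr)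
open Vale.Agent.P092.H835.PlGr (plk plH plH_surj plk_cont plk_smul rep_alt mem_iff lam2 plk_sp)
open Vale.Agent.P092.H820 (pj wd)
open Vale.Agent.P092.H914
open Vale.Agent.P092.H68.Nj3
open Vale.Agent.P092.H874 (Fn)

/-- Lipschitz functions of the representatives -/
def LD (β : Type) [Fintype β] : Set C(ℙ ℝ (β → ℝ), ℂ) :=
  {G | ∃ (φ : (β → ℝ) → ℂ) (L : ℝ), (∀ a, ‖φ a‖ ≤ 1) ∧
    (∀ a b, ‖φ a - φ b‖ * ‖a‖ ≤ L * ‖a - b‖) ∧ (∀ (c : ℝ) a, c ≠ 0 → φ (c • a) = φ a) ∧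
    ∀ v hv, G (Projectivization.mk ℝ v hv) = φ v}

theorem dense_image' {N : ℕ}
    (hd : closure (Submodule.span ℂ (LD (Fin (N + 1) × Fin (N + 1))) :
      Set C(ℙ ℝ (Fin (N + 1) × Fin (N + 1) → ℝ), ℂ)) = Set.univ) :
    closure (Submodule.span ℂ (plH '' LD (Fin (N + 1) × Fin (N + 1))) :
      Set (CG ℝ N 2)) = Set.univ := by
  have h1 : ((plH : C(ℙ ℝ (Fin (N + 1) × Fin (N + 1) → ℝ), ℂ) →⋆ₐ[ℂ] CG ℝ N 2) ''
      (Submodule.span ℂ (LD (Fin (N + 1) × Fin (N + 1))) : Set _)) ⊆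
      (Submodule.span ℂ (plH '' LD (Fin (N + 1) × Fin (N + 1))) : Set (CG ℝ N 2)) := by
    rintro _ ⟨F, hF, rfl⟩
    have h2 := Submodule.mem_map_of_mem
      (f := ((plH : C(ℙ ℝ (Fin (N + 1) × Fin (N + 1) → ℝ), ℂ) →⋆ₐ[ℂ] CG ℝ N 2) :
        C(ℙ ℝ (Fin (N + 1) × Fin (N + 1) → ℝ), ℂ) →ₗ[ℂ] CG ℝ N 2)) hF
    rw [Submodule.map_span] at h2
    exact h2
  have hc : Continuous (plH : C(ℙ ℝ (Fin (N + 1) × Fin (N + 1) → ℝ), ℂ) →⋆ₐ[ℂ] CG ℝ N 2) :=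
    ContinuousMap.continuous_precomp _
  refine Set.eq_univ_of_univ_subset ?_
  intro F _
  obtain ⟨F', rfl⟩ := plH_surj F
  have h3 : F' ∈ closure (Submodule.span ℂ (LD (Fin (N + 1) × Fin (N + 1))) :
      Set C(ℙ ℝ (Fin (N + 1) × Fin (N + 1) → ℝ), ℂ)) := by rw [hd]; trivial
  exact closure_mono h1 (image_closure_subset_closure_image hc ⟨F', h3, rfl⟩)

/-- the local form of the shell estimate -/
def ShEst {N : ℕ} {Γ K : Type} [NormedAddCommGroup K] [InnerProductSpace ℂ K] [CompleteSpace K]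
    (q : Γ → GG ℝ N) (Z : Set Γ) (D : Set (CG ℝ N 2)) (b : CG ℝ N 1 →⋆ₐ[ℂ] (K →L[ℂ] K))
    (l : CG ℝ N 2 →⋆ₐ[ℂ] (K →L[ℂ] K)) : Prop :=
    ∀ (R : ℝ) (A : Set (YY ℝ N)) (f : CG ℝ N 1) (g : CG ℝ N 2), g ∈ D →
      (∀ M ∈ closure A, ∀ x ∈ tsupport f, ¬ x.1 ≤ (hyp M).1) →
      ∃ T > 0, ∃ (C : ℝ) (d s₀ : ℕ), 0 ≤ C ∧
        ∀ (s : ℕ) (i j : Fin (N + 1)) (S : Finset Γ), s₀ ≤ s →
        (∀ γ ∈ S, γ ∈ Z ∧ NW R (ct (q γ)) ∧ Att T A (ct (q γ)) ∧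
          Real.exp s ≤ nm (ct (q γ)) ∧ nm (ct (q γ)) ≤ Real.exp (s + 1) ∧
          ∀ a b, ‖(ct (q γ)).1 a b‖ ≤ ‖(ct (q γ)).1 i j‖) →
        ∀ ξ : K, ∑ γ ∈ S, ‖b (actG (q γ)⁻¹ f) (l (actG (q γ)⁻¹ g) ξ)‖ ^ 2 ≤
          C * (1 + s) ^ d * ‖ξ‖ ^ 2

/-- the value of `φ` on Pluecker vectors does not depend on the frame -/
theorem pl_val {ι : Type} [Fintype ι] {G : C(ℙ ℝ (ι × ι → ℝ), ℂ)} {φ : (ι × ι → ℝ) → ℂ}
    (hφ : ∀ v hv, G (Projectivization.mk ℝ v hv) = φ v) (x : Gr ℝ ι 2) :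
    G (plk x) = φ (Lin.pl x) := by
  have e : x = H100.Gr.sp (Sec.fr x) := (Sec.sp_fr x).symm
  have h1 : plk x = plk (H100.Gr.sp (Sec.fr x)) := by rw [← e]
  rw [h1, plk_sp]
  exact hφ _ _

theorem wd_sub_self {ι : Type} (x y : ι → ℝ) : wd x y = wd x (y - x) := by
  funext p
  simp only [wd, Pi.sub_apply]
  ring

/-- **the shell estimate** -/
theorem sh3 {N : ℕ} (hN : 2 ≤ N) {Γ K : Type} [NormedAddCommGroup K] [InnerProductSpace ℂ K]
    [CompleteSpace K] (q : Γ → GG ℝ N) (Z : Set Γ) (hud : UDn (fun γ => ct (q γ)) Z)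
    (b z : CG ℝ N 1 →⋆ₐ[ℂ] (K →L[ℂ] K)) (l ν : CG ℝ N 2 →⋆ₐ[ℂ] (K →L[ℂ] K))
    (p : CG ℝ N 3 →⋆ₐ[ℂ] (K →L[ℂ] K)) (hzl : PL z l) (hzν : PL z ν) (hbν : PL b ν)
    (hp : Pln b z l ν p) : ShEst q Z (plH '' LD (Fin (N + 1) × Fin (N + 1))) b l := by
  classical
  intro R A f g hg hfA
  obtain ⟨G, ⟨φ, L, hφ1, hφ2, hφ3, hGφ⟩, rfl⟩ := hg
  have hN0 : 0 < N := by omega
  -- measurable structures
  letI m1 : MeasurableSpace (Gr ℝ (Fin (N + 1)) 1) := borel _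
  haveI b1 : BorelSpace (Gr ℝ (Fin (N + 1)) 1) := ⟨rfl⟩
  letI m2 : MeasurableSpace (Gr ℝ (Fin (N + 1)) 2) := borel _
  haveI b2 : BorelSpace (Gr ℝ (Fin (N + 1)) 2) := ⟨rfl⟩
  letI m3 : MeasurableSpace (Gr ℝ (Fin (N + 1)) 3) := borel _
  haveI b3 : BorelSpace (Gr ℝ (Fin (N + 1)) 3) := ⟨rfl⟩
  -- geometry
  have hY₀ : IsClosed ((p1 : YY ℝ N → Gr ℝ (Fin (N + 1)) 1) ⁻¹' tsupport f) :=
    (isClosed_tsupport _).preimage p1_cont
  obtain ⟨T₁, hT₁, C₀, hC₀, hnf⟩ := nfsl (m := N) (Fintype.card_fin _) hN0 R hY₀ (A := A)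
    (fun x hx p hp ho => hfA x hx (p1 p) hp (p1_le_hyp.2 ho))
  set C : ℝ := C₀ + KR N R + |L| with hC
  have hKR := one_le_KR N R
  have hC1 : 1 ≤ C := by
    have := abs_nonneg L
    linarith
  obtain ⟨D₁, D₂, hD₁, hD₂, hkak⟩ := Lin.kak_n (K := K)
    (kl (Gr ℝ (Fin (N + 1)) 2) (Gr ℝ (Fin (N + 1)) 1) K (Fin (N + 1) × Fin (N + 1) → ℝ)) hC1
  obtain ⟨M, hM⟩ := cell_card_ud hud (C := KR N R) (D := 1 + 4 * D₁) hKR (by linarith)
  -- the measures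
  have hI : ∀ i j, IsClosed {x : Gr ℝ (Fin (N + 1)) i × Gr ℝ (Fin (N + 1)) j | x.1.1 ≤ x.2.1} :=
    fun i j => incG_closed
  have hCI : ∀ (x : CG ℝ N 1 →⋆ₐ[ℂ] (K →L[ℂ] K)) (y : CG ℝ N 2 →⋆ₐ[ℂ] (K →L[ℂ] K)), PL x y →
      CI (fun (b : Gr ℝ (Fin (N + 1)) 2) (a : Gr ℝ (Fin (N + 1)) 1) => a.1 ≤ b.1)
        (H466.pv y) (H466.pv x) := fun x y h =>
    H604.pv_CI y x (I := fun b a => a.1 ≤ b.1) ((hI 1 2).preimage continuous_swap)
      (fun f g => (h.com g f).symm) fun f g hfg => by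
        have h1 : x g * y f = 0 := h.inc g f fun a ha b hb hab => hfg b hb a ha hab
        have h2 : Commute (x g) (y f) := h.com g f
        rw [← h2.eq]; exact h1
  have hCI3 : ∀ {i : ℕ} (x : CG ℝ N i →⋆ₐ[ℂ] (K →L[ℂ] K)) [MeasurableSpace (Gr ℝ (Fin (N + 1)) i)]
      [BorelSpace (Gr ℝ (Fin (N + 1)) i)], Inc2 x p →
      CI (fun (a : Gr ℝ (Fin (N + 1)) i) (c : Gr ℝ (Fin (N + 1)) 3) => a.1 ≤ c.1)
        (H466.pv x) (H466.pv p) := fun {i} x _ _ h =>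
    H604.pv_CI x p (I := fun a c => a.1 ≤ c.1) (hI i 3) (fun f g => h.com f g)
      fun f g hfg => h.inc f g hfg
  refine ⟨T₁, hT₁, ‖f‖ ^ 2 * (D₂ * M * 64), 6, 0, by positivity, ?_⟩
  intro s i j S _ hS ξ
  set r : ℝ := 1 / (Real.exp s * Real.exp (s / N)) with hr
  have hrr : rr N s = r := rfl
  have hr0 : 0 < r := H835.NF.rr_pos N s
  have hr1 : r ≤ 1 := H835.NF.rr_le_one N (Nat.cast_nonneg s)
  have hab : 1 ≤ Real.exp s * Real.exp (s / N) := by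
    rw [hr, div_le_one (by positivity)] at hr1
    exact hr1
  have hNW : ∀ γ ∈ S, NWn (KR N R) (Real.exp s) (Real.exp (s / N)) (ct (q γ)).1
      ((ct (q γ))⁻¹).1 i j := by
    intro γ hγ
    obtain ⟨h1, h2, h3, h4, h5, h6⟩ := hS γ hγ
    exact nwn_sh (Fintype.card_fin _) hN0 h4 h5 h2 h6
  have hct : ∀ γ, (((ct (q γ))⁻¹).1)ᵀ = (q γ).1 := fun γ => taun_inv_tr (q γ)
  have hη : ∀ γ ∈ S, yy (ct (q γ)).1 i j j = 1 ∧ ‖yy (ct (q γ)).1 i j‖ = 1 ∧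
      ∀ (x : Fin (N + 1) → ℝ) (hx : x ≠ 0),
        cl ((q γ).1 *ᵥ x) (H835.NF.mulVec_ne_sl (q γ) hx) ∈
          (p1 : YY ℝ N → Gr ℝ (Fin (N + 1)) 1) ⁻¹' tsupport f →
        ‖wd x (yy (ct (q γ)).1 i j)‖ ≤ C₀ * r * ‖x‖ := by
    intro γ hγ
    obtain ⟨h1, h2, h3, h4, h5, h6⟩ := hS γ hγ
    obtain ⟨-, e1, e2, e3⟩ := hnf T₁ le_rfl s (Nat.cast_nonneg _) (q γ)
      h4 h5 h2 h3 i j h6
    exact ⟨e1, e2, fun x hx hxY => (e3 x hx hxY).1⟩
  have key := hkak (H466.pv l) (H466.pv ν) (H466.pv z) (H466.pv b) (H466.pv p)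
    (H604.pv_Pv l) (H604.pv_Pv ν) (H604.pv_Pv z) (H604.pv_Pv b) (H604.pv_Pv p)
    (hCI z l hzl) (hCI z ν hzν) (hCI b ν hbν) (hCI3 l hp.l) (hCI3 ν hp.ν) (hCI3 z hp.z)
    (hCI3 b hp.b) Γ S (fun γ => (q γ).1) (fun γ => ((ct (q γ)).1)ᵀ) (fun _ => Real.exp (s / N))
    (fun γ => yy (ct (q γ)).1 i j) j φ (fun γ => l (actG (q γ)⁻¹ (plH G))) r M hr0 hr1
    (fun γ hγ => by
      have h1 := hw_of_NWn (hNW γ hγ) hab
      rw [hct γ] at h1
      have hle : KR N R ≤ C := by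
        have := abs_nonneg L
        linarith
      obtain ⟨v, ψ, E, e1, e2, e3⟩ := h1.dec
      have hpos := h1.N_pos
      have hrp := h1.r_pos
      exact ⟨h1.N_pos, h1.r_pos, h1.r_le, hC1, h1.inv, ⟨v, ψ, E, e1,
        fun x y => (e2 x y).trans (by gcongr), fun x y => (e3 x y).trans (by gcongr)⟩,
        fun x y => (h1.size x y).trans (by gcongr)⟩)
    (fun γ hγ => by
      have h1 := nw_of_NWn (hNW γ hγ) hab
      rw [hct γ] at h1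
      have hle : KR N R ≤ C := by
        have := abs_nonneg L
        linarith
      have hpos := h1.N_pos
      rw [(hη γ hγ).2.1, mul_one]
      refine (pi_norm_le_iff_of_nonneg (by positivity)).2 fun x => (h1.small x).trans ?_
      gcongr)
    (fun γ hγ => (hη γ hγ).2.1) (fun γ hγ => (hη γ hγ).1)
    (fun x => by
      rcases (S.filter fun γ => ‖yy (ct (q γ)).1 i j - x‖ ≤ D₁ * r).eq_empty_or_nonempty
        with h | ⟨γ₀, hγ₀⟩
      · rw [h]; simp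
      · obtain ⟨h1, h2⟩ := Finset.mem_filter.1 hγ₀
        refine hM (Real.exp s) (Real.exp (s / N)) i j (yy (ct (q γ₀)).1 i j) _ (hη γ₀ h1).2.1
          fun γ hγ => ?_
        obtain ⟨h3, h4⟩ := Finset.mem_filter.1 hγ
        refine ⟨(hS γ h3).1, hNW γ h3, ?_⟩
        rw [wd_sub_self]
        have h5 : ‖yy (ct (q γ)).1 i j - yy (ct (q γ₀)).1 i j‖ ≤ 2 * D₁ * r := by
          have e : yy (ct (q γ)).1 i j - yy (ct (q γ₀)).1 i j =
            (yy (ct (q γ)).1 i j - x) - (yy (ct (q γ₀)).1 i j - x) := by abel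
          rw [e]
          refine (norm_sub_le _ _).trans ?_
          linarith
        have h6 := Lin.wd_le (hη γ₀ h1).2.1.le h5
        have e2 : (1 + 4 * D₁) / (Real.exp s * Real.exp (s / N)) = (1 + 4 * D₁) * r := by
          rw [hr]; ring
        rw [e2]
        refine h6.trans ?_
        nlinarith)
    hφ1
    (fun a c => (hφ2 a c).trans (mul_le_mul_of_nonneg_right (by
      have := le_abs_self L
      linarith) (norm_nonneg _)))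
    hφ3
    (fun γ hγ => by
      have h1 := fn_of l (actG (q γ)⁻¹ (plH G))
      have e : (fun x => (actG (q γ)⁻¹ (plH G)) x) =
          fun x => φ (H835.PlF.sq (q γ).1 *ᵥ Lin.pl x) := by
        funext x
        have e1 : x = H100.Gr.sp (Sec.fr x) := (Sec.sp_fr x).symm
        change G (plk (((q γ)⁻¹)⁻¹ • x)) = _
        rw [_root_.inv_inv, plk_smul]
        have e2 : plk x = Projectivization.mk ℝ (Lin.pl x) (by
          exact H835.PlGr.pw_ne (Sec.fr x)) := by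
          conv_lhs => rw [e1, plk_sp]
          rfl
        rw [e2]
        have e3 : (lam2 (q γ) • Projectivization.mk ℝ (Lin.pl x) (H835.PlGr.pw_ne (Sec.fr x))) =
          Projectivization.mk ℝ (lam2 (q γ) • Lin.pl x) ((smul_ne_zero_iff_ne _).2
            (H835.PlGr.pw_ne (Sec.fr x))) := rfl
        rw [e3, hGφ, H835.PlGr.lam2_smul]
      rw [← e]
      exact h1) ξ
  -- from the discs to the operators
  have hb : ∀ γ ∈ S, ‖b (actG (q γ)⁻¹ f) (l (actG (q γ)⁻¹ (plH G)) ξ)‖ ^ 2 ≤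
      ‖f‖ ^ 2 * ‖H466.pv b {y | ∀ w ∈ y.1, ‖wd w (yy (ct (q γ)).1 i j)‖ ≤ C * r * ‖w‖}
        (l (actG (q γ)⁻¹ (plH G)) ξ)‖ ^ 2 := by
    intro γ hγ
    have hm : MeasurableSet {y : Gr ℝ (Fin (N + 1)) 1 | ∀ w ∈ y.1,
        ‖wd w (yy (ct (q γ)).1 i j)‖ ≤ C * r * ‖w‖} := (Lin.ball_closed _ _).measurableSet
    have h1 : b (actG (q γ)⁻¹ f) * H466.pv b {y | ∀ w ∈ y.1,
        ‖wd w (yy (ct (q γ)).1 i j)‖ ≤ C * r * ‖w‖} = b (actG (q γ)⁻¹ f) := by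
      refine H466.phi_pv_supp b hm fun y hy => ?_
      by_contra hne
      refine hy fun w hw => ?_
      by_cases hw0 : w = 0
      · subst hw0
        have : wd (0 : Fin (N + 1) → ℝ) (yy (ct (q γ)).1 i j) = 0 := by
          funext p; simp [wd]
        rw [this]; simp
      · have hmem : y ∈ tsupport (actG (q γ)⁻¹ f) := subset_tsupport _ hne
        have h2 := tsupport_act (q γ) f hmem
        have hy' : p1 (Projectivization.mk ℝ w hw0) = y := by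
          refine H100.Gr.eq_of_le ?_
          rw [H644.Gr3.p1_mk, Submodule.span_singleton_le_iff_mem]
          exact hw
        have h3 := (hη γ hγ).2.2 w hw0 (by
          rw [Set.mem_preimage]
          have h4 : p1 (cl ((q γ).1 *ᵥ w) (H835.NF.mulVec_ne_sl (q γ) hw0)) = q γ • y := by
            conv_rhs => rw [← hy']
            rw [← p1_smul']
            rfl
          rw [h4]
          exact h2)
        refine h3.trans ?_
        have hle : C₀ ≤ C := by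
          have := abs_nonneg L
          linarith
        gcongr
    have h2 : b (actG (q γ)⁻¹ f) (l (actG (q γ)⁻¹ (plH G)) ξ) =
        b (actG (q γ)⁻¹ f) (H466.pv b {y | ∀ w ∈ y.1,
          ‖wd w (yy (ct (q γ)).1 i j)‖ ≤ C * r * ‖w‖} (l (actG (q γ)⁻¹ (plH G)) ξ)) := by
      conv_lhs => rw [← h1]
      rfl
    rw [h2, ← mul_pow]
    refine pow_le_pow_left₀ (norm_nonneg _) ?_ 2
    have h3 : ‖b (actG (q γ)⁻¹ f)‖ ≤ ‖f‖ :=
      (NonUnitalStarAlgHom.norm_apply_le b _).trans (norm_actG_le _ _)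
    exact (ContinuousLinearMap.le_opNorm _ _).trans
      (mul_le_mul_of_nonneg_right h3 (norm_nonneg _))
  refine (Finset.sum_le_sum hb).trans ?_
  rw [← Finset.mul_sum]
  refine (mul_le_mul_of_nonneg_left key (sq_nonneg _)).trans ?_
  have h3 := log_rr (N := N) (by omega) s
  rw [hrr] at h3
  have h4 : 0 ≤ Real.log (1 / r) := Real.log_nonneg (by
    rw [one_le_div hr0]; exact hr1)
  have h5 : (1 + Real.log (1 / r)) ^ 6 ≤ 64 * (1 + (s : ℝ)) ^ 6 := by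
    calc (1 + Real.log (1 / r)) ^ 6 ≤ (2 * (1 + (s : ℝ))) ^ 6 := by gcongr
      _ = _ := by ring
  calc ‖f‖ ^ 2 * (D₂ * M * (1 + Real.log (1 / r)) ^ 6 * ‖ξ‖ ^ 2)
      ≤ ‖f‖ ^ 2 * (D₂ * M * (64 * (1 + (s : ℝ)) ^ 6) * ‖ξ‖ ^ 2) := by gcongr
    _ = _ := by ring

/-- the global form -/
theorem est_of_sh {N : ℕ} (hN : 2 ≤ N) {Γ K : Type} [NormedAddCommGroup K] [InnerProductSpace ℂ K]
    [CompleteSpace K] (q : Γ → GG ℝ N) (Z : ℝ → Set Γ) (hZ : ∀ R, UD q (Z R))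
    {D : Set (CG ℝ N 2)} {b : CG ℝ N 1 →⋆ₐ[ℂ] (K →L[ℂ] K)} {l : CG ℝ N 2 →⋆ₐ[ℂ] (K →L[ℂ] K)}
    (h : ∀ R, ShEst q (Z R) D b l) : Est q Z D b l := by
  classical
  intro R A f g hg hfA
  have hud : UDn (fun γ => ct (q γ)) (Z R) := H914.udn_taun (hZ R)
  obtain ⟨T, hT, C, d, s₀, hC, h⟩ := h R R A f g hg hfA
  obtain ⟨M₀, hM₀⟩ := ball_card_ud hud (Real.exp s₀ + (1 + |R| * Real.exp s₀))
  have hNpos : N ≠ 0 := by omega
  obtain ⟨C', hC', hsum⟩ := sum_shells (fun γ => ct (q γ))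
    (fun γ (ξ : K) => ‖b (actG (q γ)⁻¹ f) (l (actG (q γ)⁻¹ g) ξ)‖ ^ 2)
    (fun γ ξ => sq_nonneg _) (fun γ => γ ∈ Z R ∧ NW R (ct (q γ)) ∧ Att T A (ct (q γ)))
    s₀ M₀ (B := (‖f‖ * ‖g‖) ^ 2) (sq_nonneg _)
    (by
      intro γ _ ξ
      rw [← mul_pow]
      refine pow_le_pow_left₀ (norm_nonneg _) ?_ 2
      have h1 : ‖b (actG (q γ)⁻¹ f)‖ ≤ ‖f‖ :=
        (NonUnitalStarAlgHom.norm_apply_le b _).trans (norm_actG_le _ _)
      have h2 : ‖l (actG (q γ)⁻¹ g)‖ ≤ ‖g‖ :=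
        (NonUnitalStarAlgHom.norm_apply_le l _).trans (norm_actG_le _ _)
      calc _ ≤ ‖b (actG (q γ)⁻¹ f)‖ * ‖l (actG (q γ)⁻¹ g) ξ‖ :=
            ContinuousLinearMap.le_opNorm _ _
        _ ≤ ‖f‖ * (‖g‖ * ‖ξ‖) := by
            refine mul_le_mul h1 ?_ (norm_nonneg _) (norm_nonneg _)
            exact (ContinuousLinearMap.le_opNorm _ _).trans
              (mul_le_mul_of_nonneg_right h2 (norm_nonneg _))
        _ = _ := by ring)
    (by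
      intro S hS
      refine hM₀ S fun γ hγ => ?_
      obtain ⟨⟨h1, h2, h3⟩, h4⟩ := hS γ hγ
      have hR : 0 ≤ |R| * Real.exp s₀ := by positivity
      refine ⟨h1, h4.trans (by linarith), ?_⟩
      have h5 : nmn (ct (q γ))⁻¹ ^ N ≤ |R| * Real.exp s₀ :=
        h2.trans ((mul_le_mul_of_nonneg_right (le_abs_self R) (norm_nonneg _)).trans
          (mul_le_mul_of_nonneg_left h4 (abs_nonneg R)))
      have h6 : nmn (ct (q γ))⁻¹ ^ N ≤ (1 + |R| * Real.exp s₀) ^ N := by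
        refine h5.trans ?_
        calc |R| * Real.exp s₀ ≤ (1 + |R| * Real.exp s₀) ^ 1 := by rw [pow_one]; linarith
          _ ≤ _ := pow_le_pow_right₀ (by linarith) (by omega)
      exact (le_of_pow_le_pow_left₀ hNpos (by positivity) h6).trans
        (by linarith [Real.exp_pos (s₀ : ℝ)]))
    hC d
    (by
      intro s i j S hs hS ξ
      exact h s i j S hs (fun γ hγ => by
        obtain ⟨⟨h1, h2, h3⟩, h4, h5, h6⟩ := hS γ hγ
        exact ⟨h1, h2, h3, h4, h5, h6⟩) ξ)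
  refine ⟨T, hT, C', d + 1, fun J hJ S hS ξ => ?_⟩
  exact hsum J hJ S (fun γ hγ => ⟨(hS γ hγ).1, (hS γ hγ).2⟩) ξ

/-- **`NJB3Stmt ℝ`** (every `n`), modulo the density of the Lipschitz functions -/
theorem nj3_real (hd : ∀ (β : Type) [Fintype β],
    closure (Submodule.span ℂ (LD β) : Set C(ℙ ℝ (β → ℝ), ℂ)) = Set.univ) : NJB3Stmt ℝ := by
  intro N hN
  refine ⟨plH '' LD (Fin (N + 1) × Fin (N + 1)), dense_image' (hd _), ?_⟩
  intro Γ K _ _ _ _ q Z hZ b z l ν p hzl hzν hbν hp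
  exact est_of_sh hN q Z hZ fun R =>
    sh3 hN q (Z R) (H914.udn_taun (hZ R)) b z l ν p hzl hzν hbν hp

end Vale.Agent.P092.H99.Nj3R
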