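import Vale.Agent.P092.H100.Gr1

/-!
P092, TEAM N, block [N-K] (helper99), part 3: measurable sections of the Grassmannian and the
exactness of the incidence in a slice.

`k` is any nontrivially normed locally compact field.
-/

set_option linter.all false

open TopologicalSpace Topology Module Set MeasureTheory

namespace Vale.Agent.P092.H99.Sec

open Vale.Agent.P092.H100.Gr

section alg

variable {k : Type*} [Field k]

open Classical in
/-- the normalised multiple of a vector of length three -/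
noncomputable def nr (m : Fin 3 → k) : Fin 3 → k := fun c =>
  if m 0 ≠ 0 then m c / m 0 else if m 1 ≠ 0 then m c / m 1 else if m 2 ≠ 0 then m c / m 2 else 1

theorem nr_ne (m : Fin 3 → k) : nr m ≠ 0 := by
  intro h
  by_cases h0 : m 0 = 0
  · by_cases h1 : m 1 = 0
    · by_cases h2 : m 2 = 0
      · have := congrFun h 0
        simp [nr, h0, h1, h2] at this
      · have := congrFun h 2
        simp [nr, h0, h1, h2] at this
    · have := congrFun h 1
      simp [nr, h0, h1] at this
  · have := congrFun h 0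
    simp [nr, h0] at this

theorem nr_smul (m : Fin 3 → k) {c : k} (hc : c ≠ 0) : nr (c • m) = nr m := by
  funext i
  have e : ∀ j, (c • m) i / (c • m) j = m i / m j := fun j => by
    simp only [Pi.smul_apply, smul_eq_mul]
    exact mul_div_mul_left _ _ hc
  unfold nr
  rw [e, e, e]
  by_cases h0 : m 0 = 0 <;> by_cases h1 : m 1 = 0 <;> by_cases h2 : m 2 = 0 <;>
    simp [h0, h1, h2, hc]

theorem nr_eq {m : Fin 3 → k} (hm : m ≠ 0) : ∃ c : k, c ≠ 0 ∧ nr m = c • m := by
  by_cases h0 : m 0 = 0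
  · by_cases h1 : m 1 = 0
    · by_cases h2 : m 2 = 0
      · exact absurd (funext fun i => by fin_cases i <;> simp [h0, h1, h2]) hm
      · refine ⟨(m 2)⁻¹, inv_ne_zero h2, funext fun i => ?_⟩
        simp [nr, h0, h1, h2, div_eq_inv_mul]
    · refine ⟨(m 1)⁻¹, inv_ne_zero h1, funext fun i => ?_⟩
      simp [nr, h0, h1, div_eq_inv_mul]
  · refine ⟨(m 0)⁻¹, inv_ne_zero h0, funext fun i => ?_⟩
    simp [nr, h0, div_eq_inv_mul]

variable {ι : Type*} {j : ℕ}

/-- three minors -/
def vc (J : Fin 3 → Fin j → ι) (v : Fin j → ι → k) : Fin 3 → k := fun c => mn (J c) v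

theorem vc_cb (J : Fin 3 → Fin j → ι) (A : Matrix (Fin j) (Fin j) k) (v : Fin j → ι → k) :
    vc J (cb A v) = A.det • vc J v := by
  funext c
  simp only [vc, cb_mn, Pi.smul_apply, smul_eq_mul]

variable [Fintype ι]

/-- a frame of a subspace -/
noncomputable def fr (L : Gr k ι j) : Fr k ι j := Classical.choose (sp_surj L)

theorem sp_fr (L : Gr k ι j) : sp (fr L) = L := Classical.choose_spec (sp_surj L)

/-- **the section given by three minors** -/
noncomputable def sec (J : Fin 3 → Fin j → ι) (L : Gr k ι j) : Fin 3 → k := nr (vc J (fr L).1)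

theorem sec_ne (J : Fin 3 → Fin j → ι) (L : Gr k ι j) : sec J L ≠ 0 := nr_ne _

theorem sec_sp (J : Fin 3 → Fin j → ι) (v : Fr k ι j) : sec J (sp v) = nr (vc J v.1) := by
  obtain ⟨A, hA, h⟩ := (sp_eq v (fr (sp v))).1 (sp_fr _).symm
  rw [sec, h, vc_cb, nr_smul _ hA]

theorem sec_eq (J : Fin 3 → Fin j → ι) (v : Fr k ι j) (hv : vc J v.1 ≠ 0) :
    ∃ c : k, c ≠ 0 ∧ sec J (sp v) = c • vc J v.1 := by
  rw [sec_sp]
  exact nr_eq hv

/-- a vector of a line -/
def lv (v : Fr k ι 1) : ι → k := v.1 0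

theorem mem_sp1 {v : Fr k ι 1} {w : ι → k} : w ∈ (sp v).1 ↔ ∃ a : k, w = a • lv v := by
  change w ∈ Submodule.span k (range v.1) ↔ _
  rw [Submodule.mem_span_range_iff_exists_fun]
  constructor
  · rintro ⟨c, rfl⟩
    exact ⟨c 0, by simp [lv]⟩
  · rintro ⟨a, rfl⟩
    exact ⟨fun _ => a, by simp [lv]⟩

theorem mem_sp2 {v : Fr k ι 2} {w : ι → k} :
    w ∈ (sp v).1 ↔ ∃ a b : k, w = a • v.1 0 + b • v.1 1 := by
  change w ∈ Submodule.span k (range v.1) ↔ _
  rw [Submodule.mem_span_range_iff_exists_fun]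
  constructor
  · rintro ⟨c, rfl⟩
    exact ⟨c 0, c 1, by simp [Fin.sum_univ_two]⟩
  · rintro ⟨a, b, rfl⟩
    exact ⟨![a, b], by simp [Fin.sum_univ_two]⟩

theorem mn1 (i : ι) (v : Fin 1 → ι → k) : mn (fun _ => i) v = v 0 i := by
  simp [mn]

theorem mn2 (i i' : ι) (v : Fin 2 → ι → k) :
    mn ![i, i'] v = v 0 i * v 1 i' - v 0 i' * v 1 i := by
  simp [mn, Matrix.det_fin_two]

/-- the point section -/
def J1 (I : Fin 3 → ι) : Fin 3 → Fin 1 → ι := fun c _ => I c

/-- the line section: the normal vector of the projection -/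
def J2 (I : Fin 3 → ι) : Fin 3 → Fin 2 → ι := ![![I 1, I 2], ![I 2, I 0], ![I 0, I 1]]

theorem vc_J1 (I : Fin 3 → ι) (v : Fin 1 → ι → k) (c : Fin 3) : vc (J1 I) v c = v 0 (I c) :=
  mn1 _ _

theorem vc_J2 (I : Fin 3 → ι) (v : Fin 2 → ι → k) :
    vc (J2 I) v = ![v 0 (I 1) * v 1 (I 2) - v 0 (I 2) * v 1 (I 1),
      v 0 (I 2) * v 1 (I 0) - v 0 (I 0) * v 1 (I 2),
      v 0 (I 0) * v 1 (I 1) - v 0 (I 1) * v 1 (I 0)] := by
  funext c
  fin_cases c <;> simp [vc, J2, mn2]

/-- the projection to the three coordinates is injective on `L` -/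
def Inj (I : Fin 3 → ι) (L : Submodule k (ι → k)) : Prop :=
  ∀ w ∈ L, (∀ a, w (I a) = 0) → w = 0

theorem cross_ne {p q : Fin 3 → k} (h : ∀ a b : k, (∀ i, a * p i + b * q i = 0) → a = 0 ∧ b = 0) :
    ![p 1 * q 2 - p 2 * q 1, p 2 * q 0 - p 0 * q 2, p 0 * q 1 - p 1 * q 0] ≠ 0 := by
  intro h0
  have e0 : p 1 * q 2 - p 2 * q 1 = 0 := by simpa using congrFun h0 0
  have e1 : p 2 * q 0 - p 0 * q 2 = 0 := by simpa using congrFun h0 1
  have e2 : p 0 * q 1 - p 1 * q 0 = 0 := by simpa using congrFun h0 2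
  have h0' := (h (q 0) (-(p 0)) fun i => by
    fin_cases i
    · simp only [Fin.zero_eta]; ring
    · change q 0 * p 1 + -(p 0) * q 1 = 0
      linear_combination -e2
    · change q 0 * p 2 + -(p 0) * q 2 = 0
      linear_combination e1).1
  have h1' := (h (q 1) (-(p 1)) fun i => by
    fin_cases i
    · change q 1 * p 0 + -(p 1) * q 0 = 0
      linear_combination e2
    · change q 1 * p 1 + -(p 1) * q 1 = 0
      ring
    · change q 1 * p 2 + -(p 1) * q 2 = 0
      linear_combination -e0).1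
  have h2' := (h (q 2) (-(p 2)) fun i => by
    fin_cases i
    · change q 2 * p 0 + -(p 2) * q 0 = 0
      linear_combination -e1
    · change q 2 * p 1 + -(p 2) * q 1 = 0
      linear_combination e0
    · change q 2 * p 2 + -(p 2) * q 2 = 0
      ring).1
  have := (h 0 1 fun i => by fin_cases i <;> simp [h0', h1', h2']).2
  exact one_ne_zero this

/-- on a line whose projection is injective the three minors do not all vanish -/
theorem vc_J2_ne {I : Fin 3 → ι} {v : Fr k ι 2} (h : Inj I (sp v).1) : vc (J2 I) v.1 ≠ 0 := by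
  rw [vc_J2]
  refine cross_ne (p := fun c => v.1 0 (I c)) (q := fun c => v.1 1 (I c)) fun a b hab => ?_
  have h1 : a • v.1 0 + b • v.1 1 = 0 := by
    refine h _ (mem_sp2.2 ⟨a, b, rfl⟩) fun i => ?_
    simpa using hab i
  have h2 := LinearIndependent.pair_iff.1 (by
    have := v.2
    have e : v.1 = ![v.1 0, v.1 1] := by
      funext i
      fin_cases i <;> rfl
    rw [e] at this
    exact this : LinearIndependent k ![v.1 0, v.1 1]) a b h1
  exact h2

theorem vc_J1_ne {I : Fin 3 → ι} {v : Fr k ι 1} (h : Inj I (sp v).1) : vc (J1 I) v.1 ≠ 0 := by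
  intro h0
  have h1 : lv v = 0 := by
    refine h _ (mem_sp1.2 ⟨1, (one_smul _ _).symm⟩) fun a => ?_
    have := congrFun h0 a
    rw [vc_J1] at this
    exact this
  exact v.2.ne_zero 0 h1

/-- **exactness of the incidence in a slice** -/
theorem inc_exact {I : Fin 3 → ι} {x : Gr k ι 2} {y : Gr k ι 1} (hx : Inj I x.1)
    (hyx : y.1 ≤ x.1) :
    sec (J1 I) y 0 * sec (J2 I) x 0 + sec (J1 I) y 1 * sec (J2 I) x 1 +
      sec (J1 I) y 2 * sec (J2 I) x 2 = 0 := by
  obtain ⟨v, rfl⟩ := sp_surj x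
  obtain ⟨w, rfl⟩ := sp_surj y
  have hy : Inj I (sp w).1 := fun u hu => hx u (hyx hu)
  obtain ⟨c, hc, e1⟩ := sec_eq (J2 I) v (vc_J2_ne hx)
  obtain ⟨d, hd, e2⟩ := sec_eq (J1 I) w (vc_J1_ne hy)
  obtain ⟨a, b, e3⟩ := mem_sp2.1 (hyx (mem_sp1.2 ⟨1, (one_smul k (lv w)).symm⟩))
  have e4 : ∀ i, w.1 0 i = a * v.1 0 i + b * v.1 1 i := fun i => by
    have := congrFun e3 i
    simpa [lv] using this
  rw [e1, e2, vc_J2]
  simp only [Pi.smul_apply, smul_eq_mul, vc_J1, e4, Matrix.cons_val_zero, Matrix.cons_val_one,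
    Matrix.cons_val_two, Matrix.head_cons, Matrix.tail_cons]
  ring

end alg

section meas

variable {k : Type*} [NontriviallyNormedField k] [ProperSpace k] {ι : Type*} [Fintype ι] {j : ℕ}
variable [MeasurableSpace k] [BorelSpace k] [MeasurableSpace (Gr k ι j)] [BorelSpace (Gr k ι j)]

open Classical in
theorem meas_nr : Measurable (nr : (Fin 3 → k) → Fin 3 → k) := by
  haveI : SecondCountableTopology k := inferInstance
  refine measurable_pi_lambda _ fun c => ?_
  have hm : ∀ i : Fin 3, Measurable fun m : Fin 3 → k => m i := fun i => measurable_pi_apply i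
  have hs : ∀ i : Fin 3, MeasurableSet {m : Fin 3 → k | m i ≠ 0} := fun i =>
    (measurableSet_eq_fun (hm i) measurable_const).compl
  unfold nr
  exact Measurable.ite (hs 0) ((hm c).div (hm 0)) (Measurable.ite (hs 1) ((hm c).div (hm 1))
    (Measurable.ite (hs 2) ((hm c).div (hm 2)) measurable_const))

theorem meas_sec (J : Fin 3 → Fin j → ι) : Measurable (sec (k := k) J) := by
  letI : MeasurableSpace (Fr k ι j) := borel _
  haveI : BorelSpace (Fr k ι j) := ⟨rfl⟩
  haveI : PolishSpace (Fr k ι j) := by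
    have h1 : IsOpen {v : Fin j → ι → k | LinearIndependent k v} := by
      have e : {v : Fin j → ι → k | LinearIndependent k v} = ⋃ I : Fin j → ι, {v | mn I v ≠ 0} := by
        ext v
        simp only [mem_setOf_eq, mem_iUnion]
        exact li_iff
      rw [e]
      exact isOpen_iUnion fun I => (mn_cont I).isOpen_preimage _ isOpen_compl_singleton
    exact h1.polishSpace
  have h1 : Measurable (sp : Fr k ι j → Gr k ι j) := sp_cont.measurable
  rw [← h1.measurable_comp_iff_of_surjective sp_surj]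
  have e : sec (k := k) J ∘ sp = fun v : Fr k ι j => nr (vc J v.1) := funext fun v => sec_sp J v
  rw [e]
  refine meas_nr.comp ?_
  refine measurable_pi_lambda _ fun c => ?_
  exact ((mn_cont (J c)).comp fr_val_cont).measurable

end meas

end Vale.Agent.P092.H99.Sec
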